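import Vale.Agent.P204.R2.Inv

/-!
P204 R2/Adj: the adjoint of `gflat` maps smooth forms to smooth forms.
Plan: `adj_cov`: `integral_image_eq_integral_abs_det_fderiv_smul` on `univ` for `ψ` (injective,
surjective) applied to the right-hand integrand; chain rule `(fderiv φ (ψ q)).comp (fderiv ψ q) = id`,
`WL_pull`, `pullL_comp`, `pullL_id`, `IsAlt.pull`.
`adj_euc`: `t₀, φ` from `gpsi_inv`; `Ψ (v, x) = pullL (fderiv (fun x => φ (v, x)) x) (η (φ (v, x)))` is
smooth on `E × E` (`jet3_d`, `jet3_smooth`, `jet3_has` with `U = univ`), `η' x = ∫ Ψ (v, x) ∂P - η x`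
(`contDiffOn_pint` with `W = univ`). Outside `closedBall 0 (7/2)`, `φ (v, ·)` is the identity near `x`
(`gpsi_out`), so `η' x = 0`. Fubini (`integral_integral_swap`): both integrands are continuous on
`E × E` and vanish for `x` outside a ball (`η`, resp. `s`, is supported in `closedBall 0 r`), `P` is
carried by a compact set (`adj_int`). `ContinuousLinearMap.integral_comp_comm` moves `WL (η q)`, resp.
`WL.flip (s x)`, inside.
-/

namespace Vale.Agent.P204

open scoped ContDiff Topology
open Metric MeasureTheory Set Filter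

noncomputable section

theorem adj_cov {ψ φ : E → E} (hψ : ContDiff ℝ ∞ ψ) (hφ : ContDiff ℝ ∞ φ) (h1 : ∀ q, φ (ψ q) = q)
    (h2 : ∀ x, ψ (φ x) = x) (h3 : ∀ q, 0 < (fderiv ℝ ψ q).det) {η s : E → Bil}
    (hη : ∀ q, IsAlt (η q)) (hs : ∀ q, IsAlt (s q)) :
    ∫ q, WL (η q) (pullL (fderiv ℝ ψ q) (s (ψ q))) =
      ∫ x, WL (pullL (fderiv ℝ φ x) (η (φ x))) (s x) := by
  have dψ : Differentiable ℝ ψ := hψ.differentiable (by simp)
  have dφ : Differentiable ℝ φ := hφ.differentiable (by simp)
  have hinj : InjOn ψ univ := fun x _ y _ h => by rw [← h1 x, h, h1]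
  have himg : ψ '' univ = univ := eq_univ_of_forall fun x => ⟨φ x, mem_univ _, h2 x⟩
  have key := integral_image_eq_integral_abs_det_fderiv_smul (volume : Measure E)
    MeasurableSet.univ (f := ψ) (f' := fun q => fderiv ℝ ψ q)
    (fun q _ => (dψ q).hasFDerivAt.hasFDerivWithinAt) hinj
    (fun x => WL (pullL (fderiv ℝ φ x) (η (φ x))) (s x))
  rw [himg, Measure.restrict_univ] at key
  rw [key]
  refine integral_congr_ae (Eventually.of_forall fun q => ?_)
  have hc : (fderiv ℝ φ (ψ q)).comp (fderiv ℝ ψ q) = ContinuousLinearMap.id ℝ E := by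
    rw [← fderiv_comp q (dφ _) (dψ _)]
    have : φ ∘ ψ = id := funext h1
    rw [this, fderiv_id]
  simp only [smul_eq_mul]
  rw [abs_of_pos (h3 q), ← WL_pull ((hη _).pull _) (hs _), pullL_comp, hc, pullL_id, h1]

theorem adj_int {P : Measure E} {t : ℝ} (hP : Car P t) {f : E × E → ℝ} (hf : Continuous f) {r : ℝ}
    (h0 : ∀ v x, x ∉ closedBall (0 : E) r → f (v, x) = 0) : Integrable f (P.prod volume) := by
  have := hP.prob
  have hK : IsCompact (closedBall (0 : E) t ×ˢ closedBall (0 : E) r) :=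
    (isCompact_closedBall _ _).prod (isCompact_closedBall _ _)
  have h1 : IntegrableOn f (closedBall (0 : E) t ×ˢ closedBall (0 : E) r) (P.prod volume) :=
    hf.continuousOn.integrableOn_compact hK
  refine h1.integrable_of_ae_notMem_eq_zero ?_
  have h2 : ∀ᵐ y ∂(P.prod (volume : Measure E)), y.1 ∈ closedBall (0 : E) t :=
    Measure.quasiMeasurePreserving_fst.ae hP.supp
  filter_upwards [h2] with y hy hn
  exact h0 y.1 y.2 fun hx => hn ⟨hy, hx⟩

theorem r2Adj_int {g : E → ℝ} (hg : Continuous g) {r : ℝ}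
    (h0 : ∀ x, x ∉ closedBall (0 : E) r → g x = 0) : Integrable g := by
  have h1 : IntegrableOn g (closedBall (0 : E) r) volume :=
    hg.continuousOn.integrableOn_compact (isCompact_closedBall _ _)
  exact h1.integrable_of_ae_notMem_eq_zero (Eventually.of_forall h0)

theorem r2Adj_alt {P : Measure E} {f : E → Bil} (hf : Integrable f P) (h : ∀ v, IsAlt (f v)) :
    IsAlt (∫ v, f v ∂P) := by
  intro u w
  have e1 : ∀ u w : E, (∫ v, f v ∂P) u w = ∫ v, f v u w ∂P := fun u w => by
    rw [ContinuousLinearMap.integral_apply hf, ContinuousLinearMap.integral_apply]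
    exact (ContinuousLinearMap.apply ℝ Cov u).integrable_comp hf
  rw [e1, e1, ← integral_neg]
  exact integral_congr_ae (Eventually.of_forall fun v => h v u w)

theorem adj_euc {a : E → ℝ} (ha : Cut a) : ∃ t₀ > 0, ∀ (P : Measure E) (t : ℝ), Car P t → t ≤ t₀ →
    ∀ (r : ℝ) (η : E → Bil), IsLoc r η → ∃ η' : E → Bil, IsLoc (7 / 2) η' ∧ ∀ s, IsLoc r s →
      ∫ q, WL (η q) (gflat a P s q - s q) = ∫ q, WL (η' q) (s q) := by
  obtain ⟨t₀, ht₀, φ, hφ, hinv⟩ := gpsi_inv ha
  refine ⟨t₀, ht₀, fun P t hP ht r η hη => ?_⟩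
  have := hP.prob
  have hK : IsCompact (closedBall (0 : E) t) := isCompact_closedBall _ _
  have hd : ContDiff ℝ ∞ (jet3_d φ) :=
    contDiffOn_univ.1 (jet3_smooth isOpen_univ hφ.contDiffOn)
  have hD : ∀ v x, fderiv ℝ (fun x => φ (v, x)) x = jet3_d φ (v, x) := fun v x =>
    (jet3_has isOpen_univ hφ.contDiffOn (mem_univ _)).fderiv
  set Ψ : E × E → Bil := fun y => pullL (jet3_d φ y) (η (φ y)) with hΨ
  have sΨ : ContDiff ℝ ∞ Ψ := (contDiff_pullL.comp hd).clm_apply (hη.1.1.comp hφ)
  have iΨ : ∀ x, Integrable (fun v => Ψ (v, x)) P := fun x =>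
    integrable_pint P hK hP.supp sΨ.continuous.continuousOn (fun _ _ => mem_univ _)
  have sI : ContDiff ℝ ∞ (fun x => ∫ v, Ψ (v, x) ∂P) :=
    contDiffOn_univ.1 (contDiffOn_pint P hK hP.supp isOpen_univ sΨ.contDiffOn isOpen_univ
      (subset_univ _))
  have hv : ∀ᵐ v ∂P, ‖v‖ ≤ t₀ := hP.supp.mono fun v h => (mem_closedBall_zero_iff.1 h).trans ht
  refine ⟨fun x => ∫ v, Ψ (v, x) ∂P - η x, ⟨⟨sI.sub hη.1.1, fun x hx => ?_⟩, fun x => ?_⟩,
    fun s hs => ?_⟩
  · have : ∫ v, Ψ (v, x) ∂P = ∫ _, η x ∂P := by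
      refine integral_congr_ae (hv.mono fun v hv => ?_)
      have hO : IsOpen (closedBall (0 : E) (7 / 2))ᶜ := isClosed_closedBall.isOpen_compl
      have e1 : ∀ y, y ∉ closedBall (0 : E) (7 / 2) → φ (v, y) = y := fun y hy => by
        have := (hinv v hv).1 y
        rwa [(gpsi_out ha v hy).1] at this
      have e2 : (fun x => φ (v, x)) =ᶠ[𝓝 x] id :=
        Filter.mem_of_superset (hO.mem_nhds hx) fun y hy => e1 y hy
      simp only [hΨ]
      rw [← hD, e2.fderiv_eq, fderiv_id, pullL_id, e1 x hx]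
    simp [this]
  · have h1 := r2Adj_alt (iΨ x) (fun v => (hη.2 _).pull _)
    intro u w
    simp only [sub_apply]
    rw [h1 u w, hη.2 x u w]
    ring
  · have sk : ContDiff ℝ ∞ (gker a s) := gker_smooth ha.supp.1 hs.1.1
    have ik : ∀ q, Integrable (fun v => gker a s (v, q)) P := fun q =>
      integrable_pint P hK hP.supp sk.continuous.continuousOn (fun _ _ => mem_univ _)
    have c1 : Continuous fun y : E × E => WL (η y.2) (gker a s y) :=
      (WL.continuous.comp (hη.1.1.continuous.comp continuous_snd)).clm_apply sk.continuous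
    have c2 : Continuous fun y : E × E => WL (Ψ y) (s y.2) :=
      (WL.continuous.comp sΨ.continuous).clm_apply (hs.1.1.continuous.comp continuous_snd)
    have i1 := adj_int hP c1 (r := r) (fun v x hx => by simp [hη.1.2 x hx])
    have i2 := adj_int hP c2 (r := r) (fun v x hx => by simp [hs.1.2 x hx])
    have i0 : Integrable fun q => WL (η q) (s q) :=
      r2Adj_int ((WL.continuous.comp hη.1.1.continuous).clm_apply hs.1.1.continuous) (r := r)
        (fun x hx => by simp [hs.1.2 x hx])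
    have l1 : ∀ q, WL (η q) (gflat a P s q - s q) =
        ∫ v, WL (η q) (gker a s (v, q)) ∂P - WL (η q) (s q) := fun q => by
      rw [map_sub, (WL (η q)).integral_comp_comm (ik q)]
      rfl
    have l2 : ∀ x, WL (∫ v, Ψ (v, x) ∂P - η x) (s x) =
        ∫ v, WL (Ψ (v, x)) (s x) ∂P - WL (η x) (s x) := fun x => by
      rw [map_sub, sub_apply]
      congr 1
      exact ((WL.flip (s x)).integral_comp_comm (iΨ x)).symm
    simp only [l1, l2]
    rw [integral_sub i1.integral_prod_right i0, integral_sub i2.integral_prod_right i0]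
    congr 1
    rw [← integral_integral_swap (f := fun v q => WL (η q) (gker a s (v, q))) i1,
      ← integral_integral_swap (f := fun v x => WL (Ψ (v, x)) (s x)) i2]
    refine integral_congr_ae (hv.mono fun v hv => ?_)
    have := adj_cov (ψ := gpsi a v) (φ := fun x => φ (v, x)) (gpsi_smooth' ha.supp.1 v)
      (hφ.comp (contDiff_const.prodMk contDiff_id)) (hinv v hv).1 (hinv v hv).2.1 (hinv v hv).2.2
      hη.2 hs.2
    simp only [hD] at this
    exact this

end

end Vale.Agent.P204
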