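import Vale.Agent.P204.R2.Bas

/-!
P204 R2/Clo: the one-chart regularisation preserves closed and exact forms.
Plan: `closedAt_gflat`: `fderiv_pint` with `U = gU a`, `K = closedBall 0 t`, `W = ball 0 4`; evaluate
the integral on vectors (`ContinuousLinearMap.integral_apply` three times, or one continuous linear
functional on `E →L[ℝ] Bil` and `integral_comp_comm`), `closedAt_pull` for almost every `v`
(`gpsi_mem`). `exact_gflat`: `γ' q = ∫ (γ (gpsi a v q)).comp (fderiv (gpsi a v) q) ∂P - γ q`, smooth on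
`ball 0 4` (`contDiffOn_pint`), zero outside `closedBall 0 (7/2)` (`gpsi_out`), `supp_of_contDiffOn`;
`d1 γ p = A (fderiv γ p)` for the continuous linear `A = id - flipL`; `d1_pull`. Outside the ball of
radius 4 both sides vanish (`gflat_out`, `Supp.d1`). Global statements: `Closed.add`, `closed_ext`,
`isLoc_gflat`, `ClosedAt.add`, `ClosedAt.smul` (with `c = -1`), `Exact.add`, `exact_ext`.
-/

namespace Vale.Agent.P204

open scoped ContDiff Topology
open Metric MeasureTheory Set Filter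

noncomputable section

variable {a : E → ℝ} {P : Measure E} {t : ℝ}

theorem r2Clo_ev (u v w : E) : ∃ A : (E →L[ℝ] Bil) →L[ℝ] ℝ,
    ∀ T, A T = T u v w + T v w u + T w u v := by
  have h : ∀ u v w : E, ∃ A : (E →L[ℝ] Bil) →L[ℝ] ℝ, ∀ T, A T = T u v w := fun u v w =>
    ⟨(ContinuousLinearMap.apply ℝ ℝ w).comp ((ContinuousLinearMap.apply ℝ Cov v).comp
      (ContinuousLinearMap.apply ℝ Bil u)), fun _ => rfl⟩
  choose A hA using h
  exact ⟨A u v w + A v w u + A w u v, fun T => by simp only [add_apply, hA]⟩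

theorem r2Clo_alt : ∃ A : Bil →L[ℝ] Bil, ∀ γ p, d1 γ p = A (fderiv ℝ γ p) :=
  ⟨ContinuousLinearMap.id ℝ Bil -
    ((ContinuousLinearMap.flipₗᵢ ℝ E E ℝ).toContinuousLinearEquiv : Bil →L[ℝ] Bil),
    fun _ _ => rfl⟩

theorem closedAt_gflat (ha : Cut a) (hP : Car P t) {s : E → Bil} (hs : ContDiffOn ℝ ∞ s (ball 0 4))
    (hs' : ∀ p, IsAlt (s p)) (hc : ∀ p ∈ ball (0 : E) 4, ClosedAt s p) :
    ∀ p ∈ ball (0 : E) 4, ClosedAt (gflat a P s) p :=
by
  intro p hp u v w
  have := hP.prob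
  obtain ⟨h1, h2⟩ := fderiv_pint P (isCompact_closedBall 0 t) hP.supp (gU_open ha)
    (gker_smoothOn ha hs) isOpen_ball (gU_sub ha hP.small) hp
  obtain ⟨A, hA⟩ := r2Clo_ev u v w
  refine (hA _).symm.trans ((congrArg A h2).trans ?_)
  rw [← A.integral_comp_comm h1]
  refine integral_eq_zero_of_ae (hP.supp.mono fun x hx => (hA _).trans ?_)
  have k := gpsi_mem ha ((mem_closedBall_zero_iff.1 hx).trans hP.small) hp
  exact closedAt_pull (hs.contDiffAt (isOpen_ball.mem_nhds k))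
    (gpsi_smooth' ha.supp.1 x).contDiffAt (hs' _) (hc _ k) u v w

theorem exact_gflat (ha : Cut a) (hP : Car P t) {s : E → Bil} {γ : E → Cov}
    (hγ : ContDiffOn ℝ ∞ γ (ball 0 4)) (h : ∀ p ∈ ball (0 : E) 4, s p = d1 γ p) :
    ∃ γ' : E → Cov, Supp (7 / 2) γ' ∧ (fun q => gflat a P s q - s q) = d1 γ' :=
by
  have := hP.prob
  obtain ⟨Φ, hΦ⟩ : ∃ Φ : E × E → Cov,
      Φ = fun y => (γ (gpsi a y.1 y.2)).comp (fderiv ℝ (gpsi a y.1) y.2) := ⟨_, rfl⟩
  have h1 : ContDiffOn ℝ ∞ Φ (gU a) := hΦ ▸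
    (hγ.comp (gpsi_smooth ha.supp.1).contDiffOn fun y hy => hy).clm_comp
      (dgpsi_smooth ha.supp.1).contDiffOn
  have h2 := contDiffOn_pint P (isCompact_closedBall 0 t) hP.supp (gU_open ha) h1 isOpen_ball
    (gU_sub ha hP.small)
  have h3 : Supp (7 / 2) fun q => ∫ v, Φ (v, q) ∂P - γ q := by
    refine supp_of_contDiffOn isOpen_ball (h2.sub hγ) (closedBall_subset_ball (by norm_num))
      fun q hq => ?_
    have k : ∀ v, Φ (v, q) = γ q := fun v => by
      simp only [hΦ, (gpsi_out ha v hq).1, (gpsi_out ha v hq).2, ContinuousLinearMap.comp_id]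
    simp only [k, integral_const, probReal_univ, one_smul, sub_self]
  refine ⟨_, h3, funext fun q => ?_⟩
  by_cases hq : q ∈ ball (0 : E) 4
  · obtain ⟨A, hA⟩ := r2Clo_alt
    obtain ⟨k1, k2⟩ := fderiv_pint P (isCompact_closedBall 0 t) hP.supp (gU_open ha) h1
      isOpen_ball (gU_sub ha hP.small) hq
    have d : ∀ {f : E → Cov}, ContDiffOn ℝ ∞ f (ball 0 4) → DifferentiableAt ℝ f q := fun hf =>
      (hf.contDiffAt (isOpen_ball.mem_nhds hq)).differentiableAt (by simp)
    rw [hA, fderiv_fun_sub (d h2) (d hγ), map_sub, ← hA γ, h q hq, k2, ← A.integral_comp_comm k1]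
    refine congrArg (· - d1 γ q) (integral_congr_ae (hP.supp.mono fun x hx => ?_))
    have k := gpsi_mem ha ((mem_closedBall_zero_iff.1 hx).trans hP.small) hq
    simp only [← hA, hΦ, gker]
    rw [d1_pull (hγ.contDiffAt (isOpen_ball.mem_nhds k)) (gpsi_smooth' ha.supp.1 x).contDiffAt,
      h _ k]
  · have hq' : q ∉ closedBall (0 : E) (7 / 2) := fun k =>
      hq (closedBall_subset_ball (by norm_num) k)
    rw [gflat_out ha hP s hq', sub_self, h3.d1.1.2 q hq']

namespace Atlas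

variable {𝒜 : Atlas} {l : Fin 𝒜.n} {L : 𝒜.Form →ₗ[ℝ] 𝒜.Form}

theorem reg1_closed (ha : Cut a) (hP : Car P t) (hL : IsReg1 a P l L) {b : 𝒜.Form}
    (hb : Closed b) : Closed (L b) :=
by
  rw [hL b]
  refine hb.add (closed_ext l (by norm_num) (isLoc_gflat ha hP (Form.smooth b l) (Form.alt b l))
    fun p hp => ?_)
  have k := Form.contDiffAt b l hp
  exact ((closedAt_gflat ha hP (Form.smooth b l) (Form.alt b l) (hb l) p hp).add
    ((gflat_smoothOn ha hP (Form.smooth b l)).contDiffAt (isOpen_ball.mem_nhds hp))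
    (k.const_smul (-1 : ℝ)) ((hb l p hp).smul k (-1))).congr
    (Eventually.of_forall fun q => by simp only [neg_one_smul, sub_eq_add_neg])

theorem reg1_exact (ha : Cut a) (hP : Car P t) (hL : IsReg1 a P l L) {b : 𝒜.Form}
    (hb : Exact b) : Exact (L b) :=
by
  obtain ⟨γ, h1, h2⟩ := hb
  obtain ⟨γ', k1, k2⟩ := exact_gflat ha hP (h1.1 l) (h2 l)
  rw [hL b, k2]
  exact Exact.add ⟨γ, h1, h2⟩ (exact_ext l (by norm_num) k1)

end Atlas

end

end Vale.Agent.P204
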