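import Vale.Agent.P204.R2.Sm
import Vale.Agent.P204.R2.Adj
import Vale.Agent.P204.R2.Clo

/-!
P204 R2/Main: closed, exact, rep for products of one-chart regularisations.
-/

namespace Vale.Agent.P204

open scoped ContDiff Topology
open Metric MeasureTheory Set Filter

noncomputable section

namespace Atlas

variable {𝒜 : Atlas} {a : E → ℝ}

theorem reg1_adj (ha : Cut a) : ∃ t₀ > 0, ∀ (P : Measure E) (t : ℝ), Car P t → t ≤ t₀ →
    ∀ (l : Fin 𝒜.n) (L : 𝒜.Form →ₗ[ℝ] 𝒜.Form), IsReg1 a P l L →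
      ∀ η : 𝒜.Form, ∃ η' : 𝒜.Form, ∀ b, 𝒜.pair η' b = 𝒜.pair η (L b) := by
  obtain ⟨t₀, ht₀, H⟩ := adj_euc ha
  obtain ⟨θ, hθ, -, -, hθ1⟩ := exists_cutoff (r := 15 / 4) (r' := 31 / 8) (by norm_num) (by norm_num)
  refine ⟨t₀, ht₀, fun P t hP ht l L hL η => ?_⟩
  obtain ⟨η', hη', hint⟩ := H P t hP ht (31 / 8) _ (isLoc_cut l (by norm_num) hθ η)
  refine ⟨η + 𝒜.ext l η', fun b => ?_⟩
  have hloc := isLoc_gflat ha hP (Form.smooth b l) (Form.alt b l)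
  have hsub : closedBall (0 : E) (7 / 2) ⊆ closedBall 0 (15 / 4) :=
    closedBall_subset_closedBall (by norm_num)
  rw [hL, map_add, LinearMap.add_apply, map_add, pair_symm (𝒜.ext l η'),
    pair_ext l (by norm_num) hη', pair_ext l (by norm_num) hloc]
  congr 1
  have h1 := hint _ (isLoc_cut l (by norm_num) hθ b)
  have h2 : ∀ q, WL (b.1 l q) (η' q) = WL (η' q) (θ q • b.1 l q) := fun q => by
    by_cases hq : q ∈ closedBall (0 : E) (7 / 2)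
    · rw [hθ1 q (hsub hq), one_smul, WL_symm]
    · rw [hη'.1.2 q hq, map_zero, map_zero, zero_apply]
  have h3 : ∀ q, WL (η.1 l q) (gflat a P (b.1 l) q - b.1 l q) = WL (θ q • η.1 l q)
      (gflat a P (fun p => θ p • b.1 l p) q - θ q • b.1 l q) := fun q => by
    rw [← gflat_congr ha hP (s := b.1 l) (s' := fun p => θ p • b.1 l p)
      (fun p hp => by rw [hθ1 p hp, one_smul]) q]
    by_cases hq : q ∈ closedBall (0 : E) (7 / 2)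
    · rw [hθ1 q (hsub hq), one_smul]
    · rw [gflat_out ha hP _ hq, sub_self, map_zero, map_zero]
  simp only [h2, h3]
  exact h1.symm

theorem prod_closed (ha : Cut a) {P : Measure E} {t : ℝ} (hP : Car P t)
    {L : Fin 𝒜.n → Module.End ℝ 𝒜.Form} (hL : ∀ l, IsReg1 a P l (L l)) (I : List (Fin 𝒜.n))
    {b : 𝒜.Form} (hb : Closed b) : Closed ((I.map L).prod b) := by
  induction I with
  | nil => exact hb
  | cons l I ih =>
    rw [List.map_cons, List.prod_cons]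
    exact reg1_closed ha hP (hL l) ih

theorem prod_exact (ha : Cut a) {P : Measure E} {t : ℝ} (hP : Car P t)
    {L : Fin 𝒜.n → Module.End ℝ 𝒜.Form} (hL : ∀ l, IsReg1 a P l (L l)) (I : List (Fin 𝒜.n))
    {b : 𝒜.Form} (hb : Exact b) : Exact ((I.map L).prod b) := by
  induction I with
  | nil => exact hb
  | cons l I ih =>
    rw [List.map_cons, List.prod_cons]
    exact reg1_exact ha hP (hL l) ih

theorem smOn_step (ha : Cut a) {r r' : ℝ} (hr : r < r') (hr' : r' < 4) : ∃ t₀ > 0,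
    ∀ (P : Measure E) (t : ℝ), Car P t → t ≤ t₀ → ∀ (l : Fin 𝒜.n) (L : 𝒜.Form →ₗ[ℝ] 𝒜.Form),
      IsReg1 a P l L → ∀ (S : 𝒜.Form →ₗ[ℝ] ℝ) (j : Fin 𝒜.n), SmOn S j r' → SmOn (S ∘ₗ L) j r := by
  obtain ⟨t₁, ht₁, H₁⟩ := reg1_adj (𝒜 := 𝒜) ha
  obtain ⟨t₂, ht₂, H₂⟩ := reg1_supp (𝒜 := 𝒜) ha hr hr'
  refine ⟨min t₁ t₂, lt_min ht₁ ht₂, fun P t hP ht l L hL S j ⟨σ, hσ⟩ => ?_⟩
  obtain ⟨σ', hσ'⟩ := H₁ P t hP (ht.trans (min_le_left _ _)) l L hL σ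
  refine ⟨σ', fun s hs => ?_⟩
  obtain ⟨s', hs', e⟩ := H₂ P t hP (ht.trans (min_le_right _ _)) l L hL j s hs
  rw [LinearMap.comp_apply, hσ', e, hσ s' hs']

theorem smOn_prod (ha : Cut a) (I : List (Fin 𝒜.n)) : ∀ {r r' : ℝ}, r < r' → r' < 4 → ∃ t₀ > 0,
    ∀ (P : Measure E) (t : ℝ), Car P t → t ≤ t₀ →
    ∀ L : Fin 𝒜.n → Module.End ℝ 𝒜.Form, (∀ l, IsReg1 a P l (L l)) →
    ∀ (S : 𝒜.Form →ₗ[ℝ] ℝ) (j : Fin 𝒜.n), SmOn S j r' → SmOn (S ∘ₗ (I.map L).prod) j r := by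
  induction I with
  | nil =>
    intro r r' hr _
    refine ⟨1, one_pos, fun P t _ _ L _ S j ⟨σ, hσ⟩ => ⟨σ, fun s hs => ?_⟩⟩
    exact hσ s ⟨hs.1.mono hr.le, hs.2⟩
  | cons l I ih =>
    intro r r' hr hr'
    obtain ⟨t₁, ht₁, H₁⟩ := ih (r := r) (r' := (r + r') / 2) (by linarith) (by linarith)
    obtain ⟨t₂, ht₂, H₂⟩ := smOn_step (𝒜 := 𝒜) ha (r := (r + r') / 2) (r' := r') (by linarith) hr'
    refine ⟨min t₁ t₂, lt_min ht₁ ht₂, fun P t hP ht L hL S j hS => ?_⟩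
    rw [List.map_cons, List.prod_cons]
    exact H₁ P t hP (ht.trans (min_le_left _ _)) L hL _ j
      (H₂ P t hP (ht.trans (min_le_right _ _)) l (L l) (hL l) S j hS)

theorem smOn_mem (ha : Cut a) (I : List (Fin 𝒜.n)) : ∃ t₀ > 0,
    ∀ (P : Measure E) (ρ : E → ℝ) (t : ℝ), Car P t → Dens P ρ t → t ≤ t₀ →
    ∀ L : Fin 𝒜.n → Module.End ℝ 𝒜.Form, (∀ l, IsReg1 a P l (L l)) →
    ∀ (S : 𝒜.Form →ₗ[ℝ] ℝ) (k : ℕ) (C : ℝ), FinOrd S k C →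
    ∀ j ∈ I, SmOn (S ∘ₗ (I.map L).prod) j 1 := by
  induction I with
  | nil => exact ⟨1, one_pos, fun _ _ _ _ _ _ _ _ _ _ _ _ j hj => absurd hj List.not_mem_nil⟩
  | cons l I ih =>
    obtain ⟨t₁, ht₁, H₁⟩ := ih
    obtain ⟨t₂, ht₂, H₂⟩ := smOn_prod ha I (r := 1) (r' := 5 / 2) (by norm_num) (by norm_num)
    refine ⟨min t₁ t₂, lt_min ht₁ ht₂, fun P ρ t hP hρ ht L hL S k C hS j hj => ?_⟩
    rw [List.map_cons, List.prod_cons]
    rcases List.mem_cons.1 hj with rfl | hj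
    · exact H₂ P t hP (ht.trans (min_le_right _ _)) L hL _ j (smOn_self ha hP hρ (hL j) hS)
    · obtain ⟨C', hC'⟩ := reg1_finOrd ha hP (hL l) hS
      exact H₁ P ρ t hP hρ (ht.trans (min_le_left _ _)) L hL _ k C' hC' j hj

theorem prod_rep (ha : Cut a) (I : List (Fin 𝒜.n)) (hI : ∀ j, j ∈ I) : ∃ t₀ > 0,
    ∀ (P : Measure E) (ρ : E → ℝ) (t : ℝ), Car P t → Dens P ρ t → t ≤ t₀ →
    ∀ L : Fin 𝒜.n → Module.End ℝ 𝒜.Form, (∀ l, IsReg1 a P l (L l)) →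
    ∀ (S : 𝒜.Form →ₗ[ℝ] ℝ) (k : ℕ) (C : ℝ), FinOrd S k C → ∃ η, Rep η (S ∘ₗ (I.map L).prod) := by
  obtain ⟨t₀, ht₀, H⟩ := smOn_mem ha I
  exact ⟨t₀, ht₀, fun P ρ t hP hρ ht L hL S k C hS =>
    rep_of_smOn fun j => H P ρ t hP hρ ht L hL S k C hS j (hI j)⟩

end Atlas

end

end Vale.Agent.P204
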