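import Vale.Agent.P204.R2.Defs

/-!
P204 R2/Bas: basic facts on `gpsi`, `gker`, `gflat`.
-/

namespace Vale.Agent.P204

open scoped ContDiff Topology
open Metric MeasureTheory Set Filter

noncomputable section

variable {a : E → ℝ} {P : Measure E} {t : ℝ}

theorem gpsi_smooth (ha : ContDiff ℝ ∞ a) : ContDiff ℝ ∞ (fun y : E × E => gpsi a y.1 y.2) := by
  unfold gpsi
  exact contDiff_snd.add ((ha.comp contDiff_snd).smul contDiff_fst)

theorem gpsi_smooth' (ha : ContDiff ℝ ∞ a) (v : E) : ContDiff ℝ ∞ (gpsi a v) := by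
  unfold gpsi
  exact contDiff_id.add (ha.smul contDiff_const)

theorem fderiv_gpsi (ha : ContDiff ℝ ∞ a) (v q : E) :
    fderiv ℝ (gpsi a v) q = ContinuousLinearMap.id ℝ E + (fderiv ℝ a q).smulRight v := by
  have h1 : HasFDerivAt a (fderiv ℝ a q) q := (ha.differentiable (by simp) q).hasFDerivAt
  exact ((hasFDerivAt_id q).add (h1.smul_const v)).fderiv

theorem dgpsi_smooth (ha : ContDiff ℝ ∞ a) :
    ContDiff ℝ ∞ (fun y : E × E => fderiv ℝ (gpsi a y.1) y.2) := by
  simp only [fderiv_gpsi ha]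
  refine contDiff_const.add ?_
  have h1 : ContDiff ℝ ∞ (fun y : E × E => fderiv ℝ a y.2) :=
    (ha.fderiv_right (m := ∞) (by simp)).comp contDiff_snd
  exact h1.smulRight contDiff_fst

theorem gpsi_out (ha : Cut a) (v : E) {q : E} (hq : q ∉ closedBall (0 : E) (7 / 2)) :
    gpsi a v q = q ∧ fderiv ℝ (gpsi a v) q = ContinuousLinearMap.id ℝ E := by
  have h1 : gpsi a v =ᶠ[𝓝 q] id := by
    filter_upwards [isClosed_closedBall.isOpen_compl.mem_nhds hq] with p hp
    simp [gpsi, ha.supp.2 p hp]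
  exact ⟨h1.eq_of_nhds, by rw [h1.fderiv_eq, fderiv_id]⟩

theorem gpsi_in (ha : Cut a) (v : E) {q : E} (hq : q ∈ ball (0 : E) 3) :
    gpsi a v q = q + v ∧ fderiv ℝ (gpsi a v) q = ContinuousLinearMap.id ℝ E := by
  have h1 : gpsi a v =ᶠ[𝓝 q] fun p => p + v := by
    filter_upwards [isOpen_ball.mem_nhds hq] with p hp
    simp [gpsi, ha.one p (ball_subset_closedBall hp)]
  exact ⟨h1.eq_of_nhds, by rw [h1.fderiv_eq]; exact ((hasFDerivAt_id q).add_const v).fderiv⟩

theorem gpsi_dist (ha : Cut a) (v q : E) : ‖gpsi a v q - q‖ ≤ ‖v‖ := by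
  rw [gpsi, add_sub_cancel_left, norm_smul, Real.norm_of_nonneg (ha.nonneg q)]
  exact mul_le_of_le_one_left (norm_nonneg _) (ha.le_one q)

theorem gpsi_mem (ha : Cut a) {v q : E} (hv : ‖v‖ ≤ 1 / 4) (hq : q ∈ ball (0 : E) 4) :
    gpsi a v q ∈ ball (0 : E) 4 := by
  by_cases h : q ∈ closedBall (0 : E) (7 / 2)
  · rw [mem_closedBall_zero_iff] at h
    have h1 := gpsi_dist ha v q
    have h2 := norm_le_insert' (gpsi a v q) q
    rw [mem_ball_zero_iff]
    linarith
  · rw [(gpsi_out ha v h).1]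
    exact hq

theorem gpsi_mem' (ha : Cut a) {v q : E} (hv : ‖v‖ ≤ 1 / 4) (hq : q ∈ closedBall (0 : E) (7 / 2)) :
    gpsi a v q ∈ closedBall (0 : E) (15 / 4) := by
  rw [mem_closedBall_zero_iff] at hq ⊢
  have h1 := gpsi_dist ha v q
  have h2 := norm_le_insert' (gpsi a v q) q
  linarith

/-- the open set on which `gker` is smooth -/
def gU (a : E → ℝ) : Set (E × E) := {y | gpsi a y.1 y.2 ∈ ball (0 : E) 4}

theorem gU_open (ha : Cut a) : IsOpen (gU a) := by
  exact isOpen_ball.preimage (gpsi_smooth ha.supp.1).continuous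

theorem gU_sub (ha : Cut a) (ht : t ≤ 1 / 4) : closedBall (0 : E) t ×ˢ ball (0 : E) 4 ⊆ gU a := by
  rintro ⟨v, q⟩ ⟨hv, hq⟩
  exact gpsi_mem ha ((mem_closedBall_zero_iff.1 hv).trans ht) hq

theorem gker_smoothOn (ha : Cut a) {s : E → Bil} (hs : ContDiffOn ℝ ∞ s (ball 0 4)) :
    ContDiffOn ℝ ∞ (gker a s) (gU a) := by
  exact (contDiff_pullL.comp (dgpsi_smooth ha.supp.1)).contDiffOn.clm_apply
    (hs.comp (gpsi_smooth ha.supp.1).contDiffOn fun _ hy => hy)

theorem gker_smooth (ha : ContDiff ℝ ∞ a) {s : E → Bil} (hs : ContDiff ℝ ∞ s) :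
    ContDiff ℝ ∞ (gker a s) := by
  exact (contDiff_pullL.comp (dgpsi_smooth ha)).clm_apply (hs.comp (gpsi_smooth ha))

theorem gker_int (ha : Cut a) (hP : Car P t) {s : E → Bil} (hs : ContDiffOn ℝ ∞ s (ball 0 4))
    {q : E} (hq : q ∈ ball (0 : E) 4) : Integrable (fun v => gker a s (v, q)) P := by
  have := hP.prob
  exact integrable_pint P (isCompact_closedBall 0 t) hP.supp (gker_smoothOn ha hs).continuousOn
    fun v hv => gU_sub ha hP.small ⟨hv, hq⟩

theorem gflat_smoothOn (ha : Cut a) (hP : Car P t) {s : E → Bil}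
    (hs : ContDiffOn ℝ ∞ s (ball 0 4)) : ContDiffOn ℝ ∞ (gflat a P s) (ball 0 4) := by
  have := hP.prob
  exact contDiffOn_pint P (isCompact_closedBall 0 t) hP.supp (gU_open ha) (gker_smoothOn ha hs)
    isOpen_ball (gU_sub ha hP.small)

theorem gflat_out (ha : Cut a) (hP : Car P t) (s : E → Bil) {q : E}
    (hq : q ∉ closedBall (0 : E) (7 / 2)) : gflat a P s q = s q := by
  have := hP.prob
  have h : ∀ v, gker a s (v, q) = s q := fun v => by
    simp only [gker, (gpsi_out ha v hq).1, (gpsi_out ha v hq).2, pullL_id]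
  simp [gflat, h]

theorem isLoc_gflat (ha : Cut a) (hP : Car P t) {s : E → Bil} (hs : ContDiffOn ℝ ∞ s (ball 0 4))
    (hs' : ∀ p, IsAlt (s p)) : IsLoc (7 / 2) (fun q => gflat a P s q - s q) := by
  have h0 : ∀ p, p ∉ closedBall (0 : E) (7 / 2) → gflat a P s p - s p = 0 := fun p hp => by
    rw [gflat_out ha hP s hp, sub_self]
  refine ⟨supp_of_contDiffOn isOpen_ball ((gflat_smoothOn ha hP hs).sub hs)
    (closedBall_subset_ball (by norm_num)) h0, fun p u w => ?_⟩
  by_cases hp : p ∈ closedBall (0 : E) (7 / 2)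
  · have hi := gker_int ha hP hs (closedBall_subset_ball (by norm_num) hp)
    have h1 : ∀ u w : E, gflat a P s p u w = ∫ v, gker a s (v, p) u w ∂P := fun u w => by
      rw [gflat, ContinuousLinearMap.integral_apply hi,
        ContinuousLinearMap.integral_apply (hi.apply_continuousLinearMap u)]
    have h2 : gflat a P s p u w = -gflat a P s p w u := by
      rw [h1, h1, ← integral_neg]
      exact integral_congr_ae (Eventually.of_forall fun v => (hs' _).pull _ u w)
    simp only [sub_apply]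
    rw [h2, hs' p u w]
    ring
  · simp only [h0 p hp, zero_apply, neg_zero]

theorem gflat_congr (ha : Cut a) (hP : Car P t) {s s' : E → Bil}
    (h : ∀ q ∈ closedBall (0 : E) (15 / 4), s q = s' q) (q : E) :
    gflat a P s q - s q = gflat a P s' q - s' q := by
  by_cases hq : q ∈ closedBall (0 : E) (7 / 2)
  · rw [h q (closedBall_subset_closedBall (by norm_num) hq)]
    congr 1
    refine integral_congr_ae ?_
    filter_upwards [hP.supp] with v hv
    simp only [gker]
    rw [h _ (gpsi_mem' ha ((mem_closedBall_zero_iff.1 hv).trans hP.small) hq)]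
  · rw [gflat_out ha hP s hq, gflat_out ha hP s' hq, sub_self, sub_self]

theorem gflat_ne (ha : Cut a) (hP : Car P t) {s : E → Bil} {q : E}
    (h : gflat a P s q ≠ 0) : ∃ q', ‖q' - q‖ ≤ t ∧ s q' ≠ 0 := by
  by_contra hc
  push Not at hc
  refine h (integral_eq_zero_of_ae ?_)
  filter_upwards [hP.supp] with v hv
  simp only [gker]
  rw [hc _ ((gpsi_dist ha v q).trans (mem_closedBall_zero_iff.1 hv)), map_zero]
  rfl

end

end Vale.Agent.P204
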