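import Vale.Agent.P204.Jet3

/-!
P204 R2/Conv: Hahn-Banach through a linear map, derivatives of a convolution.
Plan: `hb_factor`: `ker J ≤ ker u`; `((ker J).liftQ u _).comp (J.quotKerEquivRange.symm)` is a
functional on `range J` bounded by `C` (`LinearMap.mkContinuous`), `exists_extension_norm_eq`.
`conv_smooth`, `itf_conv`: with `P = (volume.restrict (closedBall 0 r)).withDensity`-free version:
`HasCompactSupport.hasFDerivAt_convolution_right` / `contDiff_convolution_right` (after rewriting
`∫ x, φ x • g (q - x)` as `convolution φ g (lsmul ℝ ℝ) volume q`), or directly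
`hasFDerivAt_integral_of_dominated_of_fderiv_le`. Induction on `i` with
`iteratedFDeriv_succ_eq_comp_left` (the induction hypothesis is an equality of functions of `q`; the
function `iteratedFDeriv ℝ i g` is smooth with compact support, `HasCompactSupport.iteratedFDeriv`),
`LinearIsometryEquiv.integral_comp_comm` or `ContinuousLinearEquiv.integral_comp_comm`.
-/

namespace Vale.Agent.P204

open scoped ContDiff Topology
open Metric MeasureTheory Set Filter

noncomputable section

theorem hb_factor {V X : Type} [AddCommGroup V] [Module ℝ V] [NormedAddCommGroup X]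
    [NormedSpace ℝ X] (J : V →ₗ[ℝ] X) (u : V →ₗ[ℝ] ℝ) {C : ℝ} (h : ∀ s, |u s| ≤ C * ‖J s‖) :
    ∃ U : X →L[ℝ] ℝ, ∀ s, U (J s) = u s := by
  have hk : LinearMap.ker J ≤ LinearMap.ker u := by
    intro s hs
    have h1 := h s
    rw [LinearMap.mem_ker.1 hs, norm_zero, mul_zero] at h1
    exact LinearMap.mem_ker.2 (abs_nonpos_iff.1 h1)
  let f0 : LinearMap.range J →ₗ[ℝ] ℝ :=
    ((LinearMap.ker J).liftQ u hk).comp J.quotKerEquivRange.symm.toLinearMap
  have hf0 : ∀ s, f0 ⟨J s, LinearMap.mem_range_self J s⟩ = u s := by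
    intro s
    have : J.quotKerEquivRange.symm ⟨J s, LinearMap.mem_range_self J s⟩ =
        (LinearMap.ker J).mkQ s := J.quotKerEquivRange_symm_apply_image s _
    simp only [f0, LinearMap.comp_apply, LinearEquiv.coe_toLinearMap, this, Submodule.mkQ_apply,
      Submodule.liftQ_apply]
  have hb : ∀ x : LinearMap.range J, ‖f0 x‖ ≤ C * ‖x‖ := by
    rintro ⟨_, s, rfl⟩
    rw [hf0 s]
    exact h s
  obtain ⟨g, hg, -⟩ := exists_extension_norm_eq (LinearMap.range J) (f0.mkContinuous C hb)
  exact ⟨g, fun s => (hg ⟨J s, LinearMap.mem_range_self J s⟩).trans (hf0 s)⟩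

variable {F : Type} [NormedAddCommGroup F] [NormedSpace ℝ F] [CompleteSpace F]

theorem conv_smooth {φ : E → ℝ} {g : E → F} (hφ : Continuous φ) (hg : ContDiff ℝ ∞ g)
    (hg' : HasCompactSupport g) : ContDiff ℝ ∞ (fun q => ∫ x, φ x • g (q - x)) := by
  exact hg'.contDiff_convolution_right (n := ⊤) (μ := volume) (ContinuousLinearMap.lsmul ℝ ℝ)
    hφ.locallyIntegrable hg

theorem r2Conv_fderiv {G : Type} [NormedAddCommGroup G] [NormedSpace ℝ G] {φ : E → ℝ} {g : E → G}
    (hφ : Continuous φ) (hg : ContDiff ℝ 1 g) (hg' : HasCompactSupport g) (q : E) :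
    fderiv ℝ (fun q => ∫ x, φ x • g (q - x)) q = ∫ x, φ x • fderiv ℝ g (q - x) := by
  have h := (hg'.hasFDerivAt_convolution_right (μ := volume) (ContinuousLinearMap.lsmul ℝ ℝ)
    hφ.locallyIntegrable hg q).fderiv
  refine h.trans ?_
  unfold convolution
  refine integral_congr_ae (Eventually.of_forall fun x => ?_)
  ext v
  simp

theorem itf_conv {φ : E → ℝ} {g : E → F} (hφ : Continuous φ) (hg : ContDiff ℝ ∞ g)
    (hg' : HasCompactSupport g) (i : ℕ) (q : E) :
    iteratedFDeriv ℝ i (fun q => ∫ x, φ x • g (q - x)) q =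
      ∫ x, φ x • iteratedFDeriv ℝ i g (q - x) := by
  induction i generalizing q with
  | zero =>
    rw [iteratedFDeriv_zero_eq_comp, iteratedFDeriv_zero_eq_comp]
    simp only [Function.comp_apply]
    refine ((continuousMultilinearCurryFin0 ℝ E F).symm.toContinuousLinearEquiv.integral_comp_comm
      _).symm.trans ?_
    simp only [map_smul, LinearIsometryEquiv.coe_toContinuousLinearEquiv]
  | succ i ih =>
    have h1 : iteratedFDeriv ℝ i (fun q => ∫ x, φ x • g (q - x)) =
        fun q => ∫ x, φ x • iteratedFDeriv ℝ i g (q - x) := funext ih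
    have h2 : ContDiff ℝ 1 (iteratedFDeriv ℝ i g) :=
      hg.iteratedFDeriv_right (by exact_mod_cast le_top)
    rw [iteratedFDeriv_succ_eq_comp_left, iteratedFDeriv_succ_eq_comp_left]
    simp only [Function.comp_apply]
    rw [h1, r2Conv_fderiv hφ h2 (hg'.iteratedFDeriv i) q]
    refine (ContinuousLinearEquiv.integral_comp_comm (𝕜 := ℝ) (E := E →L[ℝ] E [×i]→L[ℝ] F)
      (F := E [×(i + 1)]→L[ℝ] F) (continuousMultilinearCurryLeftEquiv ℝ (fun _ : Fin (i + 1) => E)
      F).symm.toContinuousLinearEquiv (μ := volume)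
      fun x => φ x • fderiv ℝ (iteratedFDeriv ℝ i g) (q - x)).symm.trans ?_
    simp only [map_smul, LinearIsometryEquiv.coe_toContinuousLinearEquiv]

end

end Vale.Agent.P204
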