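import Vale.Agent.P204.At5
import Vale.Agent.P204.Jet3

/-!
P204 R2/Defs: the one-chart regularisation with a general cut-off `a` and a general probability
measure `P`. See notes/P204.md section R.
-/

namespace Vale.Agent.P204

open scoped ContDiff Topology
open Metric MeasureTheory Set Filter

noncomputable section

/-- the deformation `q ↦ q + a q • v` -/
def gpsi (a : E → ℝ) (v q : E) : E := q + a q • v

/-- pull-back of `s` by the deformation with parameter `y.1`, at the point `y.2` -/
def gker (a : E → ℝ) (s : E → Bil) (y : E × E) : Bil :=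
  pullL (fderiv ℝ (gpsi a y.1) y.2) (s (gpsi a y.1 y.2))

/-- average of the pull-backs -/
def gflat (a : E → ℝ) (P : Measure E) (s : E → Bil) (q : E) : Bil := ∫ v, gker a s (v, q) ∂P

/-- the cut-off of the deformation -/
structure Cut (a : E → ℝ) : Prop where
  supp : Supp (7 / 2) a
  nonneg : ∀ p, 0 ≤ a p
  le_one : ∀ p, a p ≤ 1
  one : ∀ p ∈ closedBall (0 : E) 3, a p = 1

/-- a probability measure carried by the closed ball of radius `t ≤ 1/4` -/
structure Car (P : Measure E) (t : ℝ) : Prop where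
  prob : IsProbabilityMeasure P
  supp : ∀ᵐ v ∂P, v ∈ closedBall (0 : E) t
  small : t ≤ 1 / 4

/-- `P` has the smooth density `ρ` -/
structure Dens (P : Measure E) (ρ : E → ℝ) (t : ℝ) : Prop where
  supp : Supp t ρ
  eq : ∀ f : E → Bil, Continuous f → ∫ v, f v ∂P = ∫ v, ρ v • f v

namespace Atlas

variable {𝒜 : Atlas}

/-- `L` is the regularisation in the chart `l` -/
def IsReg1 (a : E → ℝ) (P : Measure E) (l : Fin 𝒜.n) (L : 𝒜.Form →ₗ[ℝ] 𝒜.Form) : Prop :=
  ∀ b : 𝒜.Form, L b = b + 𝒜.ext l (fun q => gflat a P (b.1 l) q - b.1 l q)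

/-- `S` is represented by a smooth form on forms supported in the ball of radius `r` of
chart `j` -/
def SmOn (S : 𝒜.Form →ₗ[ℝ] ℝ) (j : Fin 𝒜.n) (r : ℝ) : Prop :=
  ∃ σ : 𝒜.Form, ∀ s, IsLoc r s → S (𝒜.ext j s) = 𝒜.pair σ (𝒜.ext j s)

end Atlas

end

end Vale.Agent.P204
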