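import Vale.Agent.P204.Defs

/-!
P204 R2/Fam: smooth families of functions are smooth as maps into `C(K, W)`, `K` compact.
Plan: copy the proof of Vale/Agent/P136/TFam.lean (no support hypothesis is needed here).
Induction on `n`, generalising `W`, `Φ`, `G`. Continuity: `G` is
`ContinuousMap.curry` of a continuous map on `Q × K` (or the tube lemma as in TFam).
`Φ' (q, w) = (fderiv ℝ Φ (q, w)).comp (inl ℝ Q D)`, `G' q : C(K, Q →L[ℝ] W)`,
`J : C(K, Q →L[ℝ] W) →L[ℝ] Q →L[ℝ] C(K, W)`, `J a h w = a w h` (`LinearMap.mkContinuous₂`,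
`ContinuousMap.norm_le`, `ContinuousMap.norm_coe_le_norm`), `HasFDerivAt G (J (G' q)) q` by the mean
value inequality, `contDiff_succ_iff_fderiv`.
-/

namespace Vale.Agent.P204

open scoped ContDiff Topology
open Metric MeasureTheory Set Filter

noncomputable section

theorem r2Fam_cont {Q D W : Type} [NormedAddCommGroup Q] [NormedAddCommGroup D]
    [NormedAddCommGroup W] (K : Set D) [CompactSpace K] (Φ : Q × D → W) (hΦ : Continuous Φ)
    (G : Q → C(K, W)) (hG : ∀ q (w : K), G q w = Φ (q, w)) : Continuous G := by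
  refine ContinuousMap.continuous_of_continuous_uncurry G ?_
  have e : (Function.uncurry fun x (y : K) => G x y) = fun z : Q × K => Φ (z.1, z.2) :=
    funext fun z => hG z.1 z.2
  rw [e]
  fun_prop

/-- exchange of the arguments -/
def r2Fam_J (Q W : Type) [NormedAddCommGroup Q] [NormedSpace ℝ Q] [NormedAddCommGroup W]
    [NormedSpace ℝ W] (K : Type) [TopologicalSpace K] [CompactSpace K] :
    C(K, Q →L[ℝ] W) →L[ℝ] (Q →L[ℝ] C(K, W)) :=
  LinearMap.mkContinuous₂ (LinearMap.mk₂ ℝ
    (fun (a : C(K, Q →L[ℝ] W)) (h : Q) =>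
      (⟨fun w => a w h, a.continuous.clm_apply continuous_const⟩ : C(K, W)))
    (fun _ _ _ => rfl) (fun _ _ _ => rfl)
    (fun a h h' => ContinuousMap.ext fun w => (a w).map_add h h')
    (fun c a h => ContinuousMap.ext fun w => (a w).map_smul c h)) 1 fun a h => by
      refine (ContinuousMap.norm_le _ (by positivity)).2 fun w => ?_
      rw [one_mul]
      exact ((a w).le_opNorm h).trans
        (mul_le_mul_of_nonneg_right (a.norm_coe_le_norm w) (norm_nonneg _))

theorem r2Fam_nat {Q D : Type} [NormedAddCommGroup Q] [NormedSpace ℝ Q] [NormedAddCommGroup D]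
    [NormedSpace ℝ D] (K : Set D) [CompactSpace K] (n : ℕ) : ∀ {W : Type} [NormedAddCommGroup W]
    [NormedSpace ℝ W] (Φ : Q × D → W), ContDiff ℝ ∞ Φ →
    ∀ G : Q → C(K, W), (∀ q (w : K), G q w = Φ (q, w)) → ContDiff ℝ n G := by
  induction n with
  | zero =>
    intro W _ _ Φ hΦ G hG
    exact contDiff_zero.2 (r2Fam_cont K Φ hΦ.continuous G hG)
  | succ n ih =>
    intro W _ _ Φ hΦ G hG
    let Φ' : Q × D → Q →L[ℝ] W := fun z => (fderiv ℝ Φ z).comp (ContinuousLinearMap.inl ℝ Q D)
    have hΦ' : ContDiff ℝ ∞ Φ' := (hΦ.fderiv_right (m := ∞) (by simp)).clm_comp contDiff_const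
    have hd : ∀ q w, HasFDerivAt (fun q => Φ (q, w)) (Φ' (q, w)) q := fun q w =>
      (hΦ.differentiable (by simp) _).hasFDerivAt.comp q (hasFDerivAt_prodMk_left q w)
    let G' : Q → C(K, Q →L[ℝ] W) := fun q =>
      ⟨fun w => Φ' (q, w), hΦ'.continuous.comp (by fun_prop)⟩
    have h1 := ih Φ' hΦ' G' fun _ _ => rfl
    have h2 : ∀ q, HasFDerivAt G (r2Fam_J Q W K (G' q)) q := by
      intro q₀
      rw [hasFDerivAt_iff_isLittleO, Asymptotics.isLittleO_iff]
      intro c hc
      obtain ⟨r, hr, h4⟩ := Metric.eventually_nhds_iff_ball.1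
        (Metric.continuousAt_iff'.1 (h1.continuous.continuousAt (x := q₀)) c hc)
      filter_upwards [ball_mem_nhds q₀ hr] with q hq
      refine (ContinuousMap.norm_le _ (by positivity)).2 fun w => ?_
      have h5 := (convex_ball q₀ r).norm_image_sub_le_of_norm_hasFDerivWithin_le'
        (fun x _ => (hd x w).hasFDerivWithinAt) (φ := G' q₀ w) (C := c)
        (fun x hx => by
          rw [← dist_eq_norm]
          exact (ContinuousMap.dist_apply_le_dist (f := G' x) (g := G' q₀) w).trans (h4 x hx).le)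
        (mem_ball_self hr) hq
      rw [← hG q, ← hG q₀] at h5
      exact h5
    have h7 := @ContinuousLinearMap.contDiff ℝ C(K, Q →L[ℝ] W) (Q →L[ℝ] C(K, W)) _ _ _ _ _ n
      (r2Fam_J Q W K)
    have h6 := h7.comp h1
    have e : fderiv ℝ G = r2Fam_J Q W K ∘ G' := funext fun q => (h2 q).fderiv
    rw [Nat.cast_succ, contDiff_succ_iff_fderiv, e]
    exact ⟨fun q => (h2 q).differentiableAt, by simp, h6⟩

theorem fam_smooth {Q D W : Type} [NormedAddCommGroup Q] [NormedSpace ℝ Q] [NormedAddCommGroup D]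
    [NormedSpace ℝ D] [NormedAddCommGroup W] [NormedSpace ℝ W] (K : Set D) [CompactSpace K]
    (Φ : Q × D → W) (hΦ : ContDiff ℝ ∞ Φ) (G : Q → C(K, W))
    (hG : ∀ q (w : K), G q w = Φ (q, w)) : ContDiff ℝ ∞ G :=
  contDiff_infty.2 fun n => r2Fam_nat K n Φ hΦ G hG

end

end Vale.Agent.P204
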