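import Vale.Agent.P204.R2.Main
import Vale.Agent.P204.R.Flat

/-!
P204 R2/Fin: the fields `closed`, `exact`, `rep` for the regularisation `RR`.
-/

namespace Vale.Agent.P204

open scoped ContDiff Topology
open Metric MeasureTheory Set Filter

noncomputable section

theorem cut_aB : Cut aB := ⟨aB_supp, aB_nonneg, aB_le, fun _ h => aB_one h⟩

/-- the measure `P1` at scale `t` -/
def Pt (t : ℝ) : Measure E := P1.map fun v => t • v

theorem integral_Pt {t : ℝ} (ht : 0 < t) (f : E → Bil) : ∫ v, f v ∂Pt t = ∫ v, f (t • v) ∂P1 :=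
  (measurableEmbedding_const_smul₀ ht.ne').integral_map f

theorem car_Pt {t : ℝ} (ht : t ∈ Ioc (0 : ℝ) (1 / 4)) : Car (Pt t) t := by
  refine ⟨Measure.isProbabilityMeasure_map (measurable_const_smul t).aemeasurable, ?_, ht.2⟩
  rw [Pt, (measurableEmbedding_const_smul₀ ht.1.ne').ae_map_iff]
  filter_upwards [P1_supp] with v hv
  rw [mem_closedBall_zero_iff] at hv ⊢
  rw [norm_smul, Real.norm_of_nonneg ht.1.le]
  exact mul_le_of_le_one_right ht.1.le hv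

theorem dens_Pt {t : ℝ} (ht : 0 < t) : Dens (Pt t) (rho t) t := by
  refine ⟨rho_supp ht, fun f _ => ?_⟩
  have h := integral_P1_conv ht f 0
  simp only [zero_add, sub_zero] at h
  rw [integral_Pt ht, h]

theorem flat_eq {t : ℝ} (ht : 0 < t) (s : E → Bil) (q : E) : flat t s q = gflat aB (Pt t) s q := by
  rw [gflat, integral_Pt ht]
  rfl

namespace Atlas

variable {𝒜 : Atlas}

theorem isReg1_reg1 {t : ℝ} (ht : t ∈ Ioc (0 : ℝ) (1 / 4)) (l : Fin 𝒜.n) :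
    IsReg1 aB (Pt t) l (𝒜.reg1 l t) := fun b => by
  rw [reg1_apply ht]
  simp only [flat_eq ht.1]

theorem regL_eq_prod (I : List (Fin 𝒜.n)) (t : ℝ) :
    𝒜.regL I t = (I.map fun l => (𝒜.reg1 l t : Module.End ℝ 𝒜.Form)).prod := by
  induction I with
  | nil => rfl
  | cons l I ih =>
    rw [List.map_cons, List.prod_cons, ← ih]
    rfl

variable (𝒜)

theorem RR_closed : ∃ t₀ > 0, ∀ t ∈ Ioc (0 : ℝ) t₀, ∀ β, Closed β → Closed (𝒜.RR t β) :=
  ⟨1 / 4, by norm_num, fun t ht β hβ => by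
    rw [RR, regL_eq_prod]
    exact prod_closed cut_aB (car_Pt ht) (isReg1_reg1 ht) _ hβ⟩

theorem RR_exact : ∃ t₀ > 0, ∀ t ∈ Ioc (0 : ℝ) t₀, ∀ β, Exact β → Exact (𝒜.RR t β) :=
  ⟨1 / 4, by norm_num, fun t ht β hβ => by
    rw [RR, regL_eq_prod]
    exact prod_exact cut_aB (car_Pt ht) (isReg1_reg1 ht) _ hβ⟩

theorem RR_rep : ∃ t₀ > 0, ∀ t ∈ Ioc (0 : ℝ) t₀, ∀ (S : 𝒜.Form →ₗ[ℝ] ℝ) (k : ℕ) (C : ℝ),
    FinOrd S k C → ∃ η, Rep η (S ∘ₗ 𝒜.RR t) := by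
  obtain ⟨t₀, ht₀, H⟩ := prod_rep (𝒜 := 𝒜) cut_aB _ List.mem_finRange
  refine ⟨min t₀ (1 / 4), lt_min ht₀ (by norm_num), fun t ht S k C hS => ?_⟩
  have ht' : t ∈ Ioc (0 : ℝ) (1 / 4) := ⟨ht.1, ht.2.trans (min_le_right _ _)⟩
  rw [RR, regL_eq_prod]
  exact H _ _ t (car_Pt ht') (dens_Pt ht.1) (ht.2.trans (min_le_left _ _)) _ (isReg1_reg1 ht')
    S k C hS

end Atlas

end

end Vale.Agent.P204
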