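import Vale.Agent.P204.R2.Fam
import Vale.Agent.P204.R2.Conv

/-!
P204 R2/Flat: a functional of finite order convolved with a bump is a smooth function.
Plan: `K = closedBall 0 r` (`isCompact_iff_compactSpace`),
`X = (i : Fin (k + 1)) → C(K, E [×i]→L[ℝ] ℝ)`, `V` = submodule of the `f` with `Supp r f`,
`J f i w = iteratedFDeriv ℝ i f w` (linear: `iteratedFDeriv_add_apply`,
`iteratedFDeriv_const_smul_apply`); `JB f k p ‖J f‖` for all `p` (inside `K` by `norm_le_pi_norm`,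
`ContinuousMap.norm_coe_le_norm`; outside `f` vanishes near `p`, `SJB_of_eventually_zero`).
`hb_factor` gives `U`. With `g y = ρ (-y)` let `G x i w = iteratedFDeriv ℝ i g (w - x)`, smooth in `x`
by `contDiff_pi`, `fam_smooth`, `ContDiff.iteratedFDeriv_right`; `w = U ∘ G`.
`J (conv φ) = ∫ x, φ x • G x` in `X` (integrable: continuous with compact support): apply the
continuous linear maps `ContinuousLinearMap.proj i`, `ContinuousMap.evalCLM`
(`ContinuousLinearMap.integral_comp_comm`) and `itf_conv`. Then `U` commutes with the integral.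
`supp_conv`: `conv_smooth`; for `‖q‖ > r' + δ` the integrand vanishes.
-/

namespace Vale.Agent.P204

open scoped ContDiff Topology
open Metric MeasureTheory Set Filter

noncomputable section

theorem r2Flat_neg {ρ : E → ℝ} {δ : ℝ} (hρ : Supp δ ρ) : Supp δ fun y => ρ (-y) :=
  ⟨hρ.1.comp contDiff_neg, fun p hp => hρ.2 _ fun h => hp (by
    rwa [mem_closedBall_zero_iff, norm_neg, ← mem_closedBall_zero_iff] at h)⟩

theorem r2Flat_eq (φ ρ : E → ℝ) : (fun q => ∫ x, φ x * ρ (x - q)) =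
    fun q => ∫ x, φ x • (fun y => ρ (-y)) (q - x) := by
  simp only [neg_sub, smul_eq_mul]

theorem supp_conv {φ ρ : E → ℝ} {r' δ r : ℝ} (hφ : Supp r' φ) (hρ : Supp δ ρ) (hr : r' + δ ≤ r) :
    Supp r (fun q => ∫ x, φ x * ρ (x - q)) :=
by
  refine ⟨r2Flat_eq φ ρ ▸ conv_smooth hφ.1.continuous (r2Flat_neg hρ).1
    (r2Flat_neg hρ).hasCompactSupport, fun q hq => integral_eq_zero_of_ae
      (Eventually.of_forall fun x => by_contra fun h => hq ?_)⟩
  have h1 := mem_closedBall_zero_iff.1 (by_contra fun k => left_ne_zero_of_mul h (hφ.2 x k))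
  have h2 := mem_closedBall_zero_iff.1 (by_contra fun k => right_ne_zero_of_mul h (hρ.2 _ k))
  have h3 := norm_sub_le x (x - q)
  rw [sub_sub_cancel] at h3
  exact mem_closedBall_zero_iff.2 (by linarith)

/-- functions supported in the closed ball -/
def r2Flat_V (r : ℝ) : Submodule ℝ (E → ℝ) where
  carrier := {f | Supp r f}
  add_mem' hf hg := ⟨hf.1.add hg.1, fun p hp => by rw [Pi.add_apply, hf.2 p hp, hg.2 p hp, add_zero]⟩
  zero_mem' := ⟨contDiff_const, fun _ _ => rfl⟩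
  smul_mem' c _ hf := ⟨hf.1.const_smul c, fun p hp => by rw [Pi.smul_apply, hf.2 p hp, smul_zero]⟩

/-- the space of jets -/
abbrev r2Flat_X (r : ℝ) (k : ℕ) : Type :=
  (i : Fin (k + 1)) → C(closedBall (0 : E) r, E [×(i : ℕ)]→L[ℝ] ℝ)

instance r2Flat_i1 (r : ℝ) (k : ℕ) : NormedAddCommGroup (r2Flat_X r k) := inferInstance
instance r2Flat_i2 (r : ℝ) (k : ℕ) : NormedSpace ℝ (r2Flat_X r k) := inferInstance
instance r2Flat_i3 (r : ℝ) (k : ℕ) : CompleteSpace (r2Flat_X r k) := inferInstance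

theorem r2Flat_comm {X Y : Type} [NormedAddCommGroup X] [NormedSpace ℝ X] [CompleteSpace X]
    [NormedAddCommGroup Y] [NormedSpace ℝ Y] [CompleteSpace Y] {G : E → X} (hG : Continuous G)
    {φ : E → ℝ} {r : ℝ} (hφ : Supp r φ) (L : X →L[ℝ] Y) :
    L (∫ x, φ x • G x) = ∫ x, φ x • L (G x) := by
  have hi : Integrable fun x => φ x • G x :=
    (hφ.1.continuous.smul hG).integrable_of_hasCompactSupport hφ.hasCompactSupport.smul_right
  rw [← L.integral_comp_comm hi]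
  simp only [map_smul]

theorem r2Flat_ev (r : ℝ) (k : ℕ) (i : Fin (k + 1)) (w : closedBall (0 : E) r) :
    ∃ L : r2Flat_X r k →L[ℝ] E [×(i : ℕ)]→L[ℝ] ℝ, ∀ x, L x = x i w :=
  ⟨(ContinuousMap.evalCLM ℝ w).comp (ContinuousLinearMap.proj i), fun _ => rfl⟩

/-- the jet map -/
def r2Flat_J (r : ℝ) (k : ℕ) : r2Flat_V r →ₗ[ℝ] r2Flat_X r k where
  toFun f i := ⟨fun w => iteratedFDeriv ℝ i f.1 w.1,
    (f.2.1.continuous_iteratedFDeriv (le_infty_Jet1 i)).comp continuous_subtype_val⟩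
  map_add' f f' := funext fun i => ContinuousMap.ext fun _ =>
    iteratedFDeriv_add_apply (f.2.1.of_le (le_infty_Jet1 i)).contDiffAt
      (f'.2.1.of_le (le_infty_Jet1 i)).contDiffAt
  map_smul' _ f := funext fun i => ContinuousMap.ext fun _ =>
    iteratedFDeriv_const_smul_apply (f.2.1.of_le (le_infty_Jet1 i)).contDiffAt

theorem r2Flat_jb {r : ℝ} (k : ℕ) (f : r2Flat_V r) (p : E) : JB f.1 k p ‖r2Flat_J r k f‖ := by
  by_cases hp : p ∈ closedBall (0 : E) r
  · exact fun i hi => ((r2Flat_J r k f ⟨i, Nat.lt_succ_of_le hi⟩).norm_coe_le_norm ⟨p, hp⟩).trans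
      (norm_le_pi_norm (r2Flat_J r k f) _)
  · rw [JB_iff_SJB]
    refine (SJB_of_eventually_zero ?_).mono le_rfl (norm_nonneg _)
    filter_upwards [isClosed_closedBall.isOpen_compl.mem_nhds hp] with q hq using f.2.2 q hq

theorem r2Flat_G (r : ℝ) (k : ℕ) {g : E → ℝ} (hg : ContDiff ℝ ∞ g) : ∃ G : E → r2Flat_X r k,
    ContDiff ℝ ∞ G ∧ ∀ x i w, G x i w = iteratedFDeriv ℝ i g (w.1 - x) := by
  refine ⟨fun x i => ⟨fun w => iteratedFDeriv ℝ i g (w.1 - x),
    (hg.continuous_iteratedFDeriv (le_infty_Jet1 i)).comp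
      (continuous_subtype_val.sub continuous_const)⟩, contDiff_pi.2 fun i => ?_, fun _ _ _ => rfl⟩
  have h : ContDiff ℝ ∞ (iteratedFDeriv ℝ i g) := contDiff_infty.2 fun m =>
    hg.iteratedFDeriv_right (by exact_mod_cast le_infty_Jet1 (m + i))
  exact fam_smooth (closedBall (0 : E) r) (fun y : E × E => iteratedFDeriv ℝ i g (y.2 - y.1))
    (h.comp (contDiff_snd.sub contDiff_fst)) _ fun _ _ => rfl

theorem flat_scalar (r : ℝ) (u : (E → ℝ) → ℝ)
    (hadd : ∀ f f', Supp r f → Supp r f' → u (f + f') = u f + u f')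
    (hsmul : ∀ (c : ℝ) f, Supp r f → u (c • f) = c * u f) {k : ℕ} {C : ℝ}
    (hb : ∀ f M, Supp r f → (∀ p, JB f k p M) → |u f| ≤ C * M) {ρ : E → ℝ} {δ : ℝ}
    (hρ : Supp δ ρ) : ∃ w : E → ℝ, ContDiff ℝ ∞ w ∧ ∀ (φ : E → ℝ) (r' : ℝ), Supp r' φ →
      r' + δ ≤ r → u (fun q => ∫ x, φ x * ρ (x - q)) = ∫ x, w x * φ x :=
by
  let u' : r2Flat_V r →ₗ[ℝ] ℝ :=
    { toFun := fun f => u f.1
      map_add' := fun f f' => hadd _ _ f.2 f'.2
      map_smul' := fun c f => hsmul c _ f.2 }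
  have hh : ∀ f, |u' f| ≤ C * ‖r2Flat_J r k f‖ := fun f => hb _ _ f.2 (r2Flat_jb k f)
  obtain ⟨U, hU⟩ := hb_factor (X := r2Flat_X r k) (r2Flat_J r k) u' hh
  have hg := r2Flat_neg hρ
  obtain ⟨G, G1, G2⟩ := r2Flat_G r k hg.1
  refine ⟨fun x => U (G x), U.contDiff.comp G1, fun φ r' hφ hr => ?_⟩
  have key : r2Flat_J r k ⟨_, supp_conv hφ hρ hr⟩ = ∫ x, φ x • G x := by
    funext i
    refine ContinuousMap.ext fun w => ?_
    obtain ⟨L, hL⟩ := r2Flat_ev r k i w
    rw [← hL (∫ x, φ x • G x), r2Flat_comm G1.continuous hφ L]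
    simp only [hL, G2]
    exact (congrArg (fun f => iteratedFDeriv ℝ i f w.1) (r2Flat_eq φ ρ)).trans
      (itf_conv hφ.1.continuous hg.1 hg.hasCompactSupport i w.1)
  refine (hU ⟨_, supp_conv hφ hρ hr⟩).symm.trans ?_
  rw [key, r2Flat_comm G1.continuous hφ U]
  simp only [smul_eq_mul, mul_comm]

end

end Vale.Agent.P204
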