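import Vale.Agent.P204.R2.Bas

/-!
P204 R2/Inv: smooth global inverse of the deformation.
Plan: `det_pos_of_lt`: `s ↦ (id + s • A).det` is continuous (`ContinuousLinearMap.continuous_det`),
equal to one at `0` and nonzero on `[0, 1]` (`id + s • A` is injective, hence a unit;
`LinearMap.isUnit_iff_isUnit_det`/`LinearMap.det_eq_zero_iff_ker_ne_bot`); intermediate values.
`near_id`: `y ↦ y + h y` approximates the identity on `univ` with constant `1/2`
(`lipschitzWith_of_nnnorm_fderiv_le`, `ApproximatesLinearOn`), `ApproximatesLinearOn.toHomeomorph`,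
`Homeomorph.contDiff_symm` with `f' y` = the equivalence given by `Units.oneSub` or
`ContinuousLinearEquiv.ofBijective`/`LinearEquiv.ofInjectiveEndo`.
`gpsi_inv`: `χ` from `exists_cutoff 1 2`; `H (w, q) = (0, (a q * χ w) • w)` on `E × E` is smooth with
compact support (`Supp`, `jb_supp` with `k = 1`, `norm_iteratedFDeriv_one`), so `‖fderiv (ε • H)‖ ≤ 1/2`
for small `ε`; `g` from `near_id`; `φ (v, x) = (g (ε⁻¹ • v, x)).2`, `(g y).1 = y.1`; for `‖v‖ ≤ ε`,
`(w, q) + ε • H (w, q) = (w, gpsi a v q)` with `w = ε⁻¹ • v`. Shrink `ε` so that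
`‖(fderiv a q).smulRight v‖ < 1` (`fderiv_gpsi`, `norm_smulRight_apply`).
-/

namespace Vale.Agent.P204

open scoped ContDiff Topology
open Metric MeasureTheory Set Filter

noncomputable section

theorem r2Inv_inj {G : Type} [NormedAddCommGroup G] [NormedSpace ℝ G] {A : G →L[ℝ] G}
    (h : ‖A‖ < 1) : Function.Injective (ContinuousLinearMap.id ℝ G + A) := by
  rw [injective_iff_map_eq_zero]
  intro v hv
  have h1 : v = -A v := eq_neg_of_add_eq_zero_left hv
  have h2 : ‖v‖ ≤ ‖A‖ * ‖v‖ := by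
    conv_lhs => rw [h1, norm_neg]
    exact A.le_opNorm v
  by_contra hn
  have h3 := mul_lt_mul_of_pos_right h (norm_pos_iff.2 hn)
  linarith

theorem det_pos_of_lt {A : End} (h : ‖A‖ < 1) : 0 < (ContinuousLinearMap.id ℝ E + A).det := by
  have hc : Continuous fun s : ℝ => (ContinuousLinearMap.id ℝ E + s • A).det :=
    ContinuousLinearMap.continuous_det.comp (continuous_const.add (continuous_id.smul continuous_const))
  by_contra hn
  have h0 : (0 : ℝ) ∈ Icc ((fun s : ℝ => (ContinuousLinearMap.id ℝ E + s • A).det) 1)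
      ((fun s : ℝ => (ContinuousLinearMap.id ℝ E + s • A).det) 0) := by
    have : (ContinuousLinearMap.id ℝ E).det = 1 := LinearMap.det_id
    beta_reduce
    rw [one_smul, zero_smul ℝ A, add_zero, this]
    exact ⟨not_lt.1 hn, zero_le_one⟩
  obtain ⟨s, hs, h1⟩ := intermediate_value_Icc' zero_le_one hc.continuousOn h0
  have h2 : ‖s • A‖ < 1 := by
    rw [norm_smul, Real.norm_of_nonneg hs.1]
    exact (mul_le_of_le_one_left (norm_nonneg _) hs.2).trans_lt h
  exact LinearMap.det_eq_zero_iff_ker_ne_bot.1 h1 (LinearMap.ker_eq_bot.2 (r2Inv_inj h2))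

theorem near_id {G : Type} [NormedAddCommGroup G] [NormedSpace ℝ G] [FiniteDimensional ℝ G]
    {h : G → G} (hh : ContDiff ℝ ∞ h) (hb : ∀ y, ‖fderiv ℝ h y‖ ≤ 1 / 2) :
    ∃ g : G → G, ContDiff ℝ ∞ g ∧ (∀ y, g (y + h y) = y) ∧ ∀ x, g x + h (g x) = x := by
  have : CompleteSpace G := FiniteDimensional.complete ℝ G
  have hF : ContDiff ℝ ∞ fun y => y + h y := contDiff_id.add hh
  have hA : ∀ y, ∃ A : G ≃L[ℝ] G, HasStrictFDerivAt (fun y => y + h y) (A : G →L[ℝ] G) y := by
    intro y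
    have h1 : ‖fderiv ℝ h y‖ < 1 := (hb y).trans_lt (by norm_num)
    exact ⟨(LinearEquiv.ofInjectiveEndo (ContinuousLinearMap.id ℝ G + fderiv ℝ h y).toLinearMap
      (r2Inv_inj h1)).toContinuousLinearEquiv,
      (hasStrictFDerivAt_id y).add (hh.contDiffAt.hasStrictFDerivAt (by simp))⟩
  choose A hA using hA
  have hL : LipschitzWith (1 / 2) h :=
    lipschitzWith_of_nnnorm_fderiv_le (hh.differentiable (by simp)) fun y => by
      rw [← NNReal.coe_le_coe]
      simpa using hb y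
  have hap : ApproximatesLinearOn (fun y => y + h y)
      (ContinuousLinearEquiv.refl ℝ G : G →L[ℝ] G) univ (1 / 2) := by
    intro x _ y _
    have e : x + h x - (y + h y) - (ContinuousLinearEquiv.refl ℝ G : G →L[ℝ] G) (x - y) =
        h x - h y := by
      simp only [ContinuousLinearEquiv.coe_refl, ContinuousLinearMap.id_apply]
      abel
    rw [e]
    exact hL.norm_sub_le x y
  have hc : Subsingleton G ∨ (1 / 2 : NNReal) <
      ‖((ContinuousLinearEquiv.refl ℝ G).symm : G →L[ℝ] G)‖₊⁻¹ := by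
    rcases subsingleton_or_nontrivial G with h1 | h1
    · exact Or.inl h1
    · right
      rw [ContinuousLinearEquiv.refl_symm, ContinuousLinearEquiv.coe_refl,
        ContinuousLinearMap.nnnorm_id]
      norm_num
  have bij : Function.Bijective fun y => y + h y :=
    ⟨injOn_univ.1 (hap.injOn hc), hap.surjective hc⟩
  let Φ : G ≃ₜ G := (Equiv.ofBijective _ bij).toHomeomorphOfContinuousOpen
    hF.continuous (isOpenMap_of_hasStrictFDerivAt_equiv hA)
  exact ⟨Φ.symm, Φ.contDiff_symm (fun z => (hA z).hasFDerivAt) hF, Φ.symm_apply_apply,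
    Φ.apply_symm_apply⟩

theorem r2Inv_bd {D F : Type} [NormedAddCommGroup D] [NormedSpace ℝ D] [FiniteDimensional ℝ D]
    [NormedAddCommGroup F] [NormedSpace ℝ F] {f : D → F} {r : ℝ} (hf : Supp r f) :
    ∃ C ≥ 1, ∀ p, ‖fderiv ℝ f p‖ ≤ C := by
  obtain ⟨C, hC, h⟩ := jb_supp hf 1
  exact ⟨C, hC, fun p => by rw [← norm_iteratedFDeriv_one]; exact h p 1 le_rfl⟩

theorem gpsi_inv {a : E → ℝ} (ha : Cut a) : ∃ t₀ > 0, ∃ φ : E × E → E, ContDiff ℝ ∞ φ ∧
    ∀ v : E, ‖v‖ ≤ t₀ → (∀ q, φ (v, gpsi a v q) = q) ∧ (∀ x, gpsi a v (φ (v, x)) = x) ∧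
      ∀ q, 0 < (fderiv ℝ (gpsi a v) q).det := by
  obtain ⟨χ, hχ, -, -, hχ1⟩ := exists_cutoff (r := 1) (r' := 2) one_pos one_lt_two
  have hH : Supp (7 / 2) fun y : E × E => ((0 : E), (a y.2 * χ y.1) • y.1) := by
    refine ⟨contDiff_const.prodMk
      (((ha.supp.1.comp contDiff_snd).mul (hχ.1.comp contDiff_fst)).smul contDiff_fst), ?_⟩
    intro y hy
    rw [mem_closedBall_zero_iff, Prod.norm_def, not_le, lt_max_iff] at hy
    have : a y.2 * χ y.1 = 0 := by
      rcases hy with h | h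
      · rw [hχ.2 y.1 (by rw [mem_closedBall_zero_iff, not_le]; linarith), mul_zero]
      · rw [ha.supp.2 y.2 (by rwa [mem_closedBall_zero_iff, not_le]), zero_mul]
    beta_reduce
    rw [this, zero_smul, Prod.mk_zero_zero]
  obtain ⟨C, hC, h1⟩ := r2Inv_bd hH
  obtain ⟨C', hC', h2⟩ := r2Inv_bd ha.supp
  obtain ⟨ε, hε⟩ : ∃ ε : ℝ, ε = 1 / (2 * C * C') := ⟨_, rfl⟩
  have hε0 : 0 < ε := by rw [hε]; positivity
  have hε1 : ε * C * C' = 1 / 2 := by rw [hε]; field_simp
  have hε2 : ε * C ≤ 1 / 2 := hε1 ▸ le_mul_of_one_le_right (by positivity) hC'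
  have hε3 : C' * ε ≤ 1 / 2 := by
    have : ε * C' * 1 ≤ ε * C' * C := mul_le_mul_of_nonneg_left hC (by positivity)
    linarith
  obtain ⟨g, hg, g1, g2⟩ := near_id
    (h := fun y : E × E => ε • ((0 : E), (a y.2 * χ y.1) • y.1)) (hH.1.const_smul ε) fun y => by
      rw [fderiv_fun_const_smul (hH.1.differentiable (by simp) y), norm_smul,
        Real.norm_of_nonneg hε0.le]
      exact (mul_le_mul_of_nonneg_left (h1 y) hε0.le).trans hε2
  refine ⟨ε, hε0, fun y => (g (ε⁻¹ • y.1, y.2)).2,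
    (hg.comp ((contDiff_fst.const_smul _).prodMk contDiff_snd)).snd, fun v hv => ?_⟩
  have hw : χ (ε⁻¹ • v) = 1 := by
    refine hχ1 _ ?_
    rw [mem_closedBall_zero_iff, norm_smul, Real.norm_of_nonneg (inv_nonneg.2 hε0.le)]
    exact inv_mul_le_one_of_le₀ hv hε0.le
  have key : ∀ q : E, (ε⁻¹ • v, q) + ε • ((0 : E), (a q * χ (ε⁻¹ • v)) • ε⁻¹ • v) =
      (ε⁻¹ • v, gpsi a v q) := by
    intro q
    rw [hw, mul_one, Prod.smul_mk, smul_zero, Prod.mk_add_mk, add_zero, smul_comm ε,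
      smul_inv_smul₀ hε0.ne', gpsi]
  refine ⟨fun q => ?_, fun x => ?_, fun q => ?_⟩
  · have := g1 (ε⁻¹ • v, q)
    simp only [key] at this
    simp only [this]
  · have h3 := g2 (ε⁻¹ • v, x)
    have h4 : (g (ε⁻¹ • v, x)).1 = ε⁻¹ • v := by simpa using congrArg Prod.fst h3
    have h5 := key (g (ε⁻¹ • v, x)).2
    rw [h4] at h3
    have h6 : g (ε⁻¹ • v, x) = (ε⁻¹ • v, (g (ε⁻¹ • v, x)).2) := Prod.ext h4 rfl
    rw [← h6, h3] at h5
    exact (congrArg Prod.snd h5).symm
  · rw [fderiv_gpsi ha.supp.1]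
    refine det_pos_of_lt ?_
    rw [ContinuousLinearMap.norm_smulRight_apply]
    have := mul_le_mul (h2 q) hv (norm_nonneg _) (zero_le_one.trans hC')
    linarith

end

end Vale.Agent.P204
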