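import Vale.Agent.P204.R2.Bas

/-!
P204 R2/Ord: the one-chart regularisation is bounded in `C^k`.
Plan: `jb_gflat`: for `p ∉ closedBall 0 (7/2)` the function vanishes near `p` (`gflat_out`,
`SJB_of_eventually_zero`, `M ≥ 0` from the hypothesis at `0`). Otherwise `sjb_pint` (scale `1`,
`JB_iff_SJB`, constant bound) with `SJB.clm_apply`, `SJB.comp`; the jets of
`q ↦ pullL (fderiv (gpsi a v) q)` and `q ↦ gpsi a v q` are bounded on
`closedBall 0 (1/4) ×ˢ closedBall 0 (7/2)` by `jb_param` (`U = univ`, `gpsi_smooth`, `dgpsi_smooth`,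
`contDiff_pullL`), `gpsi_mem'`; `SJB.sub`. `ext_Cn`: for `p ∈ ov i l 1 r` use `cmp` and `ext_self`;
otherwise `p` is outside the closed set `ov i l 2 r` (`haus`) and the form vanishes near `p`
(`ext_ne_zero`). `reg1_finOrd`: `Cn_jb` with radius `15/4`, `jb_gflat`, `isLoc_gflat`, `ext_Cn`,
`Cn.add`.
-/

namespace Vale.Agent.P204

open scoped ContDiff Topology
open Metric MeasureTheory Set Filter

noncomputable section

variable {a : E → ℝ} {P : Measure E} {t : ℝ}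

theorem jb_gflat (ha : Cut a) (k : ℕ) : ∃ C ≥ 1, ∀ (P : Measure E) (t : ℝ), Car P t →
    ∀ (s : E → Bil) (M : ℝ), ContDiffOn ℝ ∞ s (ball 0 4) →
      (∀ q ∈ closedBall (0 : E) (15 / 4), JB s k q M) →
      ∀ p, JB (fun q => gflat a P s q - s q) k p (C * M) :=
by
  have hK : IsCompact (closedBall (0 : E) (1 / 4) ×ˢ closedBall (0 : E) (7 / 2)) :=
    (isCompact_closedBall _ _).prod (isCompact_closedBall _ _)
  have s1 : ContDiff ℝ ∞ fun y : E × E => pullL (fderiv ℝ (gpsi a y.1) y.2) :=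
    contDiff_pullL.comp (dgpsi_smooth ha.supp.1)
  obtain ⟨A, A1, hA⟩ := jb_param (Φ := fun y : E × E => pullL (fderiv ℝ (gpsi a y.1) y.2))
    isOpen_univ s1.contDiffOn hK (subset_univ _) k
  simp only at hA
  obtain ⟨L, L1, hL⟩ := jb_param isOpen_univ (gpsi_smooth ha.supp.1).contDiffOn hK (subset_univ _) k
  refine ⟨2 ^ k * A * (k.factorial * L ^ k) + 1, le_add_of_nonneg_left (by positivity),
    fun P t hP s M hs hM p => ?_⟩
  have := hP.prob
  have M0 : 0 ≤ M := ((JB_iff_SJB _ _ _ _).1 (hM 0 (mem_closedBall_self (by norm_num)))).nonneg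
  rw [JB_iff_SJB]
  by_cases hp : p ∈ closedBall (0 : E) (7 / 2)
  · have p4 : p ∈ ball (0 : E) 4 := closedBall_subset_ball (by norm_num) hp
    have h1 : SJB (gflat a P s) k 1 p (∫ _, 2 ^ k * A * (k.factorial * L ^ k * M) ∂P) := by
      refine sjb_pint P (isCompact_closedBall 0 t) hP.supp (gU_open ha) (gker_smoothOn ha hs)
        isOpen_ball (gU_sub ha hP.small) p4 zero_le_one (integrable_const _)
        (hP.supp.mono fun v hv => ?_)
      have v1 : ‖v‖ ≤ 1 / 4 := (mem_closedBall_zero_iff.1 hv).trans hP.small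
      have y1 : (v, p) ∈ closedBall (0 : E) (1 / 4) ×ˢ closedBall (0 : E) (7 / 2) :=
        ⟨mem_closedBall_zero_iff.2 v1, hp⟩
      have c1 := hs.contDiffAt (isOpen_ball.mem_nhds (gpsi_mem ha v1 p4))
      have c2 : ContDiffAt ℝ ∞ (gpsi a v) p := (gpsi_smooth' ha.supp.1 v).contDiffAt
      have c3 : ContDiffAt ℝ ∞ (fun q => pullL (fderiv ℝ (gpsi a v) q)) p :=
        contDiff_pullL.contDiffAt.comp p (c2.fderiv_right (by simp))
      have c4 : SJB (fun q => pullL (fderiv ℝ (gpsi a v) q)) k 1 p A :=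
        (JB_iff_SJB _ _ _ _).1 (hA (v, p) y1)
      have c5 : SJB (fun q => s (gpsi a v q)) k 1 p (k.factorial * L ^ k * M) :=
        SJB.comp one_pos le_rfl c1 c2 ((JB_iff_SJB _ _ _ _).1 (hM _ (gpsi_mem' ha v1 hp))) L1
          fun i _ hi => hL (v, p) y1 i hi
      exact SJB.clm_apply (A := fun q => pullL (fderiv ℝ (gpsi a v) q))
        (f := fun q => s (gpsi a v q)) zero_le_one c3 (c1.comp p c2) c4 c5
    rw [integral_const, probReal_univ, one_smul] at h1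
    exact (h1.sub zero_le_one ((gflat_smoothOn ha hP hs).contDiffAt (isOpen_ball.mem_nhds p4))
      (hs.contDiffAt (isOpen_ball.mem_nhds p4)) ((JB_iff_SJB _ _ _ _).1
        (hM p (closedBall_subset_closedBall (by norm_num) hp)))).mono le_rfl (le_of_eq (by ring))
  · refine (SJB_of_eventually_zero ?_).mono le_rfl (by positivity)
    filter_upwards [isClosed_closedBall.isOpen_compl.mem_nhds hp] with q hq
    rw [gflat_out ha hP s hq, sub_self]

namespace Atlas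

variable {𝒜 : Atlas} {l : Fin 𝒜.n} {L : 𝒜.Form →ₗ[ℝ] 𝒜.Form}

theorem ext_Cn (k : ℕ) {r : ℝ} (hr : r < 4) : ∃ C ≥ 1, ∀ (l : Fin 𝒜.n) (s : E → Bil) (M : ℝ),
    IsLoc r s → (∀ p, JB s k p M) → Cn k (𝒜.ext l s) (C * M) :=
by
  obtain ⟨C, C1, hC⟩ := cmp (𝒜 := 𝒜) k (r := 2) (by norm_num) hr
  refine ⟨C, C1, fun l s M hs hM i p hp => ?_⟩
  have M0 : 0 ≤ M := ((JB_iff_SJB _ _ _ _).1 (hM 0)).nonneg
  rw [JB_iff_SJB]
  by_cases h : p ∈ 𝒜.ov i l 2 r
  · refine hC _ i l p h 1 M one_pos le_rfl ?_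
    rw [ext_self l hr hs]
    exact (JB_iff_SJB _ _ _ _).1 (hM _)
  · refine (SJB_of_eventually_zero ?_).mono le_rfl (by positivity)
    filter_upwards [(𝒜.haus i l 2 r (by norm_num) hr).isOpen_compl.mem_nhds h,
      isOpen_ball.mem_nhds (closedBall_subset_ball (show (1 : ℝ) < 2 by norm_num) hp)] with q h1 h2
    by_contra h3
    obtain ⟨k1, k2⟩ := ext_ne_zero l i hr hs h3
    exact h1 ⟨ball_subset_closedBall h2, k1, by_contra fun k3 => k2 (hs.1.2 _ k3)⟩

theorem reg1_finOrd (ha : Cut a) (hP : Car P t) (hL : IsReg1 a P l L) {S : 𝒜.Form →ₗ[ℝ] ℝ} {k : ℕ}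
    {C : ℝ} (hS : FinOrd S k C) : ∃ C', FinOrd (S ∘ₗ L) k C' :=
by
  obtain ⟨A, -, hA⟩ := Cn_jb (𝒜 := 𝒜) k (r := 15 / 4) (by norm_num)
  obtain ⟨B, -, hB⟩ := jb_gflat ha k
  obtain ⟨D, -, hD⟩ := ext_Cn (𝒜 := 𝒜) k (r := 7 / 2) (by norm_num)
  refine ⟨C * (1 + D * (B * A)), fun β M hM => ?_⟩
  have h := hS _ _ (hM.add (hD l _ _ (isLoc_gflat ha hP (Form.smooth β l) (Form.alt β l))
    (hB P t hP _ _ (Form.smooth β l) (hA β M hM l))))
  rw [← hL β] at h
  exact h.trans_eq (by ring)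

end Atlas

end

end Vale.Agent.P204
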