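import Vale.Agent.P204.R2.Bas

/-!
P204 R2/Supp: propagation of supports; `gflat` is a convolution on forms with small support.
Plan: `gflat_conv`: for `q ∈ ball 0 3` use `gpsi_in`, `pullL_id`, `Dens.eq` and the translation
`x = q + v` (`integral_add_left_eq_self`). For `‖q‖ ≥ 3` both sides vanish (`gflat_ne`; `ρ (x - q) = 0`
or `s x = 0`). `greg1_self`: `ext_self`, `ext_add` (radius `7/2`, `isLoc_gflat`, `Supp.mono`).
`reg1_supp`: `δ, Λ` from `lip` with radii `(15/4, r)`, `t₀ = min δ ((r' - r) / Λ)`; apply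
`eq_ext_of_supp`. If `(L g) i p ≠ 0` then `g i p ≠ 0` (`ext_ne_zero`) or `p ∈ O i l` and, at
`q = τ i l p ∈ closedBall 0 (7/2)`, `g l q' ≠ 0` for some `‖q' - q‖ ≤ t` (`gflat_ne`, or `q' = q`;
`t ≥ 0` since `P` is a probability measure carried by `closedBall 0 t`). Then
`q' ∈ ov l j (15/4) r`, so `q ∈ O l j`, `‖τ l j q‖ ≤ r + Λ t`, and `cocycle` concludes.
-/

namespace Vale.Agent.P204

open scoped ContDiff Topology
open Metric MeasureTheory Set Filter

noncomputable section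

variable {a : E → ℝ} {P : Measure E} {t : ℝ}

theorem r2Supp_nonneg (hP : Car P t) : 0 ≤ t := by
  have := hP.prob
  obtain ⟨v, hv⟩ := hP.supp.exists
  exact (norm_nonneg v).trans (mem_closedBall_zero_iff.1 hv)

theorem gflat_conv (ha : Cut a) (hP : Car P t) {ρ : E → ℝ} (hρ : Dens P ρ t) {s : E → Bil}
    (hs : IsLoc (5 / 2) s) (q : E) : gflat a P s q = ∫ x, ρ (x - q) • s x := by
  have hz : ∀ x, s x ≠ 0 → ‖x‖ ≤ 5 / 2 := fun x hx => by
    by_contra h
    exact hx (hs.1.2 x fun h' => h (mem_closedBall_zero_iff.1 h'))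
  by_cases hq : q ∈ ball (0 : E) 3
  · have h1 : ∀ v, gker a s (v, q) = s (q + v) := fun v => by
      simp only [gker, (gpsi_in ha v hq).1, (gpsi_in ha v hq).2, pullL_id]
    simp only [gflat, h1]
    rw [hρ.eq (fun v => s (q + v)) (hs.1.1.continuous.comp (continuous_const.add continuous_id)),
      ← integral_add_left_eq_self (fun x => ρ (x - q) • s x) q]
    simp only [add_sub_cancel_left]
  · rw [mem_ball_zero_iff, not_lt] at hq
    have ht := hP.small
    have h1 : gflat a P s q = 0 := by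
      by_contra h
      obtain ⟨q', h2, h3⟩ := gflat_ne ha hP h
      have h4 := hz q' h3
      have h5 := norm_le_insert q' q
      linarith
    have h2 : ∀ x, ρ (x - q) • s x = 0 := fun x => by
      by_cases h : s x = 0
      · rw [h, smul_zero]
      · have h4 := hz x h
        have h5 := norm_le_insert x q
        rw [hρ.supp.2 (x - q) fun h' => by
          have := mem_closedBall_zero_iff.1 h'
          linarith, zero_smul]
    simp only [h1, h2, integral_zero]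

namespace Atlas

variable {𝒜 : Atlas}

theorem greg1_self (ha : Cut a) (hP : Car P t) {l : Fin 𝒜.n} {L : 𝒜.Form →ₗ[ℝ] 𝒜.Form}
    (hL : IsReg1 a P l L) {s : E → Bil} (hs : IsLoc (7 / 2) s) :
    L (𝒜.ext l s) = 𝒜.ext l (gflat a P s) := by
  have h7 : (7 / 2 : ℝ) < 4 := by norm_num
  rw [hL, ext_self l h7 hs, ← ext_add l h7 hs (isLoc_gflat ha hP hs.1.1.contDiffOn hs.2)]
  simp only [add_sub_cancel]

theorem reg1_supp (ha : Cut a) {r r' : ℝ} (hr : r < r') (hr' : r' < 4) : ∃ t₀ > 0,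
    ∀ (P : Measure E) (t : ℝ), Car P t → t ≤ t₀ → ∀ (l : Fin 𝒜.n) (L : 𝒜.Form →ₗ[ℝ] 𝒜.Form),
      IsReg1 a P l L → ∀ (j : Fin 𝒜.n) (s : E → Bil), IsLoc r s →
        ∃ s', IsLoc r' s' ∧ L (𝒜.ext j s) = 𝒜.ext j s' := by
  have hr4 : r < 4 := hr.trans hr'
  obtain ⟨δ, hδ, Λ, hΛ, hlip⟩ := lip (𝒜 := 𝒜) (r := 15 / 4) (r' := r) (by norm_num) hr4
  refine ⟨min δ ((r' - r) / Λ), lt_min hδ (div_pos (by linarith) (by linarith)),
    fun P t hP ht l L hL j s hs => ?_⟩
  have ht0 := r2Supp_nonneg hP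
  have ht1 : t ≤ δ := ht.trans (min_le_left _ _)
  have ht2 : Λ * t ≤ r' - r := by
    have := ht.trans (min_le_right _ _)
    rw [le_div_iff₀ (by linarith)] at this
    linarith
  have hg : ∀ i p, (𝒜.ext j s).1 i p ≠ 0 → p ∈ 𝒜.O i j ∧ 𝒜.τ i j p ∈ closedBall (0 : E) r := by
    intro i p hp
    obtain ⟨h1, h2⟩ := ext_ne_zero j i hr4 hs hp
    refine ⟨h1, ?_⟩
    by_contra h
    exact h2 (hs.1.2 _ h)
  generalize 𝒜.ext j s = g at hg ⊢
  refine ⟨_, eq_ext_of_supp j hr' (L g) fun i p hp => ?_⟩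
  by_cases h0 : g.1 i p = 0
  · have hloc := isLoc_gflat ha hP (Form.smooth g l) (Form.alt g l)
    rw [hL] at hp
    simp only [Submodule.coe_add, Pi.add_apply, h0, zero_add] at hp
    obtain ⟨h1, h2⟩ := ext_ne_zero l i (by norm_num) hloc hp
    have h3 : 𝒜.τ i l p ∈ closedBall (0 : E) (7 / 2) := by
      by_contra h
      exact h2 (hloc.1.2 _ h)
    obtain ⟨q', h4, h5⟩ : ∃ q', ‖q' - 𝒜.τ i l p‖ ≤ t ∧ g.1 l q' ≠ 0 := by
      by_cases h : g.1 l (𝒜.τ i l p) = 0
      · exact gflat_ne ha hP (by simpa only [h, sub_zero] using h2)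
      · exact ⟨_, by simpa using ht0, h⟩
    obtain ⟨h6, h7⟩ := hg l q' h5
    have h8 : q' ∈ closedBall (0 : E) (15 / 4) := by
      rw [mem_closedBall_zero_iff] at h3 ⊢
      have := norm_le_insert' q' (𝒜.τ i l p)
      have := hP.small
      linarith
    have h9 : dist (𝒜.τ i l p) q' ≤ t := by rw [dist_comm, dist_eq_norm]; exact h4
    obtain ⟨k1, k2⟩ := hlip l j q' ⟨h8, h6, h7⟩ _ (h9.trans ht1)
    obtain ⟨k3, k4⟩ := 𝒜.cocycle i l j p h1 k1
    refine ⟨k3, ?_⟩
    rw [← k4, mem_closedBall]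
    have k5 := dist_triangle (𝒜.τ l j (𝒜.τ i l p)) (𝒜.τ l j q') 0
    have k6 := mem_closedBall.1 h7
    have k7 : Λ * dist (𝒜.τ i l p) q' ≤ Λ * t := mul_le_mul_of_nonneg_left h9 (by linarith)
    linarith
  · obtain ⟨h1, h2⟩ := hg i p h0
    exact ⟨h1, closedBall_subset_closedBall hr.le h2⟩

end Atlas

end

end Vale.Agent.P204
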