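import Vale.Agent.P204.R2.Flat
import Vale.Agent.P204.R2.Ord
import Vale.Agent.P204.R2.Supp

/-!
P204 R2/Sm: a functional of finite order composed with the regularisation in chart `l` is smooth
there; gluing.
Plan: `smOn_self`: for `a c : Fin 4` apply `flat_scalar` with `r = 3` to
`u f = S (ext l fun q => f q • ef a c)` (`ext_add`, `ext_smul`; bound by `ext_Cn` and `SJB.clm` with
the map `toSpanSingleton`/`smulRight`), get `w a c`. For `IsLoc (5/2) s`: `greg1_self`, `gflat_conv`,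
`alt_expand` give `gflat a P s q = ∑ a c, (∫ x, φ a c x * ρ (x - q)) • ef a c` with
`φ a c x = 1/2 * s x (e a) (e c)` (`Supp (5/2)`), `ext_sum`, `supp_conv`. With `θ` from
`exists_cutoff (5/2) 3` put `σ = ext l fun x => θ x • ∑ a c, (1/2 * w a c x) • hs (ef a c)`;
`pair_ext`, `ext_self`, `WL_symm`, `WL_hs_bv`.
`rep_of_smOn`: `η = ∑ j, ext j (chi j • σ j j)` (`isLoc_cut`), `pair_symm`, `pair_ext`, `WL_symm`,
`sum_ext_chi`.
-/

namespace Vale.Agent.P204

open scoped ContDiff Topology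
open Metric MeasureTheory Set Filter

noncomputable section

theorem r2Sm_loc {r : ℝ} {f : E → ℝ} (hf : Supp r f) {b : Bil} (hb : IsAlt b) :
    IsLoc r fun q => f q • b :=
  ⟨⟨hf.1.smul contDiff_const, fun p hp => by simp only [hf.2 p hp, zero_smul]⟩, fun _ => hb.smul _⟩

theorem r2Sm_int {r : ℝ} {f g : E → ℝ} (hf : Supp r f) (hg : Continuous g) :
    Integrable fun x => f x * g x :=
  (hf.1.continuous.mul hg).integrable_of_hasCompactSupport hf.hasCompactSupport.mul_right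

theorem r2Sm_coef {r : ℝ} {s : E → Bil} (hs : IsLoc r s) (i : Fin 4 × Fin 4) :
    Supp r fun x => 1 / 2 * s x (e i.1) (e i.2) :=
  ⟨contDiff_const.mul ((hs.1.1.clm_apply contDiff_const).clm_apply contDiff_const),
    fun p hp => by simp [hs.1.2 p hp]⟩

theorem r2Sm_conv {r : ℝ} {s : E → Bil} (hs : IsLoc r s) {ρ : E → ℝ} (hρ : Continuous ρ) (q : E) :
    ∫ x, ρ (x - q) • s x = ∑ i : Fin 4 × Fin 4,
      (∫ x, 1 / 2 * s x (e i.1) (e i.2) * ρ (x - q)) • ef i.1 i.2 := by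
  have h : ∀ x, ρ (x - q) • s x = ∑ i : Fin 4 × Fin 4,
      (1 / 2 * s x (e i.1) (e i.2) * ρ (x - q)) • ef i.1 i.2 := fun x => by
    conv_lhs => rw [alt_expand (hs.2 x), ← Fintype.sum_prod_type', Finset.smul_sum]
    exact Finset.sum_congr rfl fun i _ => by rw [smul_smul, mul_comm]
  simp only [h]
  rw [integral_finsetSum _ fun i _ => (r2Sm_int (r2Sm_coef hs i)
    (g := fun x => ρ (x - q)) (by fun_prop)).smul_const _]
  exact Finset.sum_congr rfl fun i _ => integral_smul_const _ _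

namespace Atlas

variable {𝒜 : Atlas} {a : E → ℝ} {P : Measure E} {t : ℝ}

theorem r2Sm_w {ρ : E → ℝ} (hρ : Supp t ρ) (ht : t ≤ 1 / 4) (l : Fin 𝒜.n)
    {S : 𝒜.Form →ₗ[ℝ] ℝ} {k : ℕ} {C : ℝ} (hS : FinOrd S k C) {b : Bil} (hb : IsAlt b) :
    ∃ w : E → ℝ, ContDiff ℝ ∞ w ∧ ∀ φ : E → ℝ, Supp (5 / 2) φ →
      S (𝒜.ext l fun q => (∫ x, φ x * ρ (x - q)) • b) = ∫ x, w x * φ x := by
  have h3 : (3 : ℝ) < 4 := by norm_num
  obtain ⟨C', -, hC'⟩ := ext_Cn (𝒜 := 𝒜) k h3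
  obtain ⟨w, hw, h⟩ := flat_scalar 3 (fun f => S (𝒜.ext l fun q => f q • b))
    (fun f f' hf hf' => by
      rw [← map_add, ← ext_add l h3 (r2Sm_loc hf hb) (r2Sm_loc hf' hb)]
      simp only [Pi.add_apply, add_smul])
    (fun c f hf => by
      rw [← smul_eq_mul, ← map_smul, ← ext_smul l h3 (r2Sm_loc hf hb)]
      simp only [Pi.smul_apply, smul_assoc])
    (k := k) (C := C * C' * ‖ContinuousLinearMap.toSpanSingleton ℝ b‖)
    (fun f M hf hM => by
      have h1 := hS _ _ (hC' l _ (‖ContinuousLinearMap.toSpanSingleton ℝ b‖ * M) (r2Sm_loc hf hb)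
        fun p => (JB_iff_SJB _ _ _ _).2 (SJB.clm zero_le_one
          (ContinuousLinearMap.toSpanSingleton ℝ b) hf.1.contDiffAt ((JB_iff_SJB _ _ _ _).1 (hM p))))
      simpa only [mul_assoc] using h1) hρ
  exact ⟨w, hw, fun φ hφ => h φ _ hφ (by linarith)⟩

theorem smOn_self (ha : Cut a) (hP : Car P t) {ρ : E → ℝ} (hρ : Dens P ρ t) {l : Fin 𝒜.n}
    {L : 𝒜.Form →ₗ[ℝ] 𝒜.Form} (hL : IsReg1 a P l L) {S : 𝒜.Form →ₗ[ℝ] ℝ} {k : ℕ} {C : ℝ}
    (hS : FinOrd S k C) : SmOn (S ∘ₗ L) l (5 / 2) := by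
  have h3 : (3 : ℝ) < 4 := by norm_num
  choose w hw hw' using fun i : Fin 4 × Fin 4 =>
    r2Sm_w hρ.supp hP.small l hS (b := ef i.1 i.2) (bv_alt _ _)
  obtain ⟨θ, hθ, -, -, hθ1⟩ := exists_cutoff (r := 5 / 2) (r' := 3) (by norm_num) (by norm_num)
  have hσ : IsLoc 3 fun x => θ x • hs (∑ i : Fin 4 × Fin 4, (1 / 2 * w i x) • ef i.1 i.2) :=
    ⟨⟨hθ.1.smul (hs.contDiff.comp (ContDiff.sum fun i _ =>
      (contDiff_const.mul (hw i)).smul contDiff_const)),
      fun p hp => by simp only [hθ.2 p hp, zero_smul]⟩, fun x => (hs_alt _).smul _⟩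
  refine ⟨𝒜.ext l fun x => θ x • hs (∑ i : Fin 4 × Fin 4, (1 / 2 * w i x) • ef i.1 i.2),
    fun s hs' => ?_⟩
  have e1 : gflat a P s = fun q => ∑ i : Fin 4 × Fin 4,
      (∫ x, 1 / 2 * s x (e i.1) (e i.2) * ρ (x - q)) • ef i.1 i.2 := funext fun q => by
    rw [gflat_conv ha hP hρ hs', r2Sm_conv hs' hρ.supp.1.continuous]
  rw [LinearMap.comp_apply, greg1_self ha hP hL ⟨hs'.1.mono (by norm_num), hs'.2⟩, e1,
    ext_sum l h3 _ fun i _ => r2Sm_loc (b := ef i.1 i.2) (supp_conv (r2Sm_coef hs' i) hρ.supp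
      (by linarith [hP.small])) (bv_alt _ _), map_sum, pair_ext l (by norm_num) hs',
    ext_self l h3 hσ, Finset.sum_congr rfl fun i _ => hw' i _ (r2Sm_coef hs' i),
    ← integral_finsetSum _ fun i _ => ((r2Sm_int (r2Sm_coef hs' i) (hw i).continuous).congr
      (Eventually.of_forall fun x => mul_comm _ _))]
  refine integral_congr_ae (Eventually.of_forall fun x => ?_)
  by_cases hx : x ∈ closedBall (0 : E) (5 / 2)
  · simp only [hθ1 x hx, one_smul]
    rw [WL_symm, map_sum, map_sum]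
    refine Finset.sum_congr rfl fun i _ => ?_
    rw [map_smul, map_smul, ef, WL_hs_bv (hs'.2 x), smul_eq_mul]
    ring
  · simp [hs'.1.2 x hx]

theorem rep_of_smOn {S : 𝒜.Form →ₗ[ℝ] ℝ} (h : ∀ j, SmOn S j 1) : ∃ η, Rep η S := by
  have h1 : (1 : ℝ) < 4 := by norm_num
  choose σ hσ using h
  refine ⟨∑ j, 𝒜.ext j fun p => 𝒜.chi j p • (σ j).1 j p, fun β => ?_⟩
  conv_rhs => rw [← sum_ext_chi β]
  rw [map_sum, map_sum, LinearMap.sum_apply]
  refine Finset.sum_congr rfl fun j _ => ?_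
  rw [hσ j _ (isLoc_cut j h1 (𝒜.chi_supp j) β), pair_symm,
    pair_ext j h1 (isLoc_cut j h1 (𝒜.chi_supp j) β),
    pair_ext j h1 (isLoc_cut j h1 (𝒜.chi_supp j) (σ j))]
  refine integral_congr_ae (Eventually.of_forall fun x => ?_)
  simp only [map_smul]
  rw [WL_symm]

end Atlas

end

end Vale.Agent.P204
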